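import Vale.Agent.P292.H180.Kos

/-! # Kostant's theorem for commutative algebras generated by a simple Lie algebra. -/

namespace Vale.Agent.P292.H180

open Module LieAlgebra LieAlgebra.IsKilling LieModule

section alg

variable {L : Type*} [LieRing L] [LieAlgebra ℂ L] [FiniteDimensional ℂ L]
  [LieAlgebra.IsKilling ℂ L] {H : LieSubalgebra ℂ L} [H.IsCartanSubalgebra]
  {T : Type*} [CommRing T] [Algebra ℂ T] [LieRingModule L T] [LieModule ℂ L T]
  {i : L →ₗ[ℂ] T} {f : Dual ℂ H →+ ℚ} {e : L} {θ : Dual ℂ H}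

/-- Weight vectors. -/
def WtV (w : T) (μ : Dual ℂ H) : Prop := ∀ t : H, ⁅(t : L), w⁆ = μ t • w

omit [FiniteDimensional ℂ L] [LieAlgebra.IsKilling ℂ L] [H.IsCartanSubalgebra] in
theorem WtV.mul (hder : ∀ (x : L) (a b : T), ⁅x, a * b⁆ = ⁅x, a⁆ * b + a * ⁅x, b⁆) {a b : T}
    {μ ν : Dual ℂ H} (ha : WtV a μ) (hb : WtV b ν) : WtV (a * b) (μ + ν) := by
  intro t
  rw [hder, ha, hb, LinearMap.add_apply, add_smul, smul_mul_assoc, mul_smul_comm]

omit [FiniteDimensional ℂ L] [LieAlgebra.IsKilling ℂ L] [H.IsCartanSubalgebra]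
  [LieAlgebra ℂ L] [Algebra ℂ T] [LieModule ℂ L T] in
theorem lie_one' (hder : ∀ (x : L) (a b : T), ⁅x, a * b⁆ = ⁅x, a⁆ * b + a * ⁅x, b⁆) (x : L) :
    ⁅x, (1 : T)⁆ = 0 := by
  have h := hder x 1 1
  rw [mul_one, mul_one, one_mul] at h
  exact left_eq_add.mp h

omit [FiniteDimensional ℂ L] [LieAlgebra.IsKilling ℂ L] [H.IsCartanSubalgebra] in
theorem WtV.pow (hder : ∀ (x : L) (a b : T), ⁅x, a * b⁆ = ⁅x, a⁆ * b + a * ⁅x, b⁆) {a : T}
    {μ : Dual ℂ H} (ha : WtV a μ) (k : ℕ) : WtV (a ^ k) (k • μ) := by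
  induction k with
  | zero =>
    intro t
    rw [pow_zero, lie_one' hder, zero_smul, LinearMap.zero_apply, zero_smul]
  | succ k ih =>
    rw [pow_succ, succ_nsmul]
    exact ih.mul hder ha

/-- The lower weight vectors. -/
def lower (f : Dual ℂ H →+ ℚ) (ν : Dual ℂ H) : Set T :=
  {w | ∃ μ : Dual ℂ H, WtV w μ ∧ ν - μ ∈ Cone f ∧ 0 < f (ν - μ)}

theorem pow_le [LieAlgebra.IsSimple ℂ L] (hf : ∀ α : H.root, f (α.1.toLinear) ≠ 0)
    (he : IsHW f e θ)
    (hder : ∀ (x : L) (a b : T), ⁅x, a * b⁆ = ⁅x, a⁆ * b + a * ⁅x, b⁆)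
    (hi : ∀ x y : L, ⁅x, i y⁆ = i ⁅x, y⁆) (k : ℕ) :
    (LinearMap.range i) ^ k ≤ Submodule.span ℂ ({(i e) ^ k} ∪ lower f (k • θ)) := by
  have hie : WtV (i e) θ := fun t => by rw [hi, he.wt, map_smul]
  have h1 : LinearMap.range i ≤ Submodule.span ℂ ({i e} ∪ lower f θ) := by
    rintro _ ⟨x, rfl⟩
    have h2 := top_eq hf he x
    have h3 : i x ∈ (Submodule.span ℂ ({e} ∪
      {w : L | ∃ μ : Dual ℂ H, (∀ t : H, ⁅(t : L), w⁆ = μ t • w) ∧ θ - μ ∈ Cone f ∧
        0 < f (θ - μ)})).map i := ⟨x, h2, rfl⟩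
    rw [Submodule.map_span] at h3
    refine Submodule.span_mono ?_ h3
    rintro _ ⟨w, hw | ⟨μ, hw, h4⟩, rfl⟩
    · rw [Set.mem_singleton_iff] at hw
      exact Or.inl (by rw [hw]; rfl)
    · exact Or.inr ⟨μ, fun t => by rw [hi, hw, map_smul], h4⟩
  induction k with
  | zero =>
    rw [pow_zero, Submodule.one_eq_span, pow_zero]
    exact Submodule.span_mono Set.subset_union_left
  | succ k ih =>
    rw [pow_succ]
    refine (mul_le_mul' ih h1).trans ?_
    rw [Submodule.span_mul_span, Submodule.span_le]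
    rintro _ ⟨a, ha, b, hb, rfl⟩
    refine Submodule.subset_span ?_
    have hs : (k + 1) • θ = k • θ + θ := succ_nsmul θ k
    rcases ha with ha | ⟨μ, hμ, hμ1, hμ2⟩
    · rw [Set.mem_singleton_iff] at ha
      subst ha
      rcases hb with hb | ⟨ν, hν, hν1, hν2⟩
      · rw [Set.mem_singleton_iff] at hb
        subst hb
        exact Or.inl (by simp [pow_succ])
      · refine Or.inr ⟨k • θ + ν, (hie.pow hder k).mul hder hν, ?_⟩
        rw [hs, show k • θ + θ - (k • θ + ν) = θ - ν by abel]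
        exact ⟨hν1, hν2⟩
    · rcases hb with hb | ⟨ν, hν, hν1, hν2⟩
      · rw [Set.mem_singleton_iff] at hb
        subst hb
        refine Or.inr ⟨μ + θ, hμ.mul hder hie, ?_⟩
        rw [hs, show k • θ + θ - (μ + θ) = k • θ - μ by abel]
        exact ⟨hμ1, hμ2⟩
      · refine Or.inr ⟨μ + ν, hμ.mul hder hν, ?_⟩
        rw [hs, show k • θ + θ - (μ + ν) = (k • θ - μ) + (θ - ν) by abel]
        refine ⟨add_mem hμ1 hν1, ?_⟩
        rw [map_add]
        linarith

/-- The weights of the powers. -/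
theorem wt_cases [LieAlgebra.IsSimple ℂ L] (hf : ∀ α : H.root, f (α.1.toLinear) ≠ 0)
    (he : IsHW f e θ)
    (hder : ∀ (x : L) (a b : T), ⁅x, a * b⁆ = ⁅x, a⁆ * b + a * ⁅x, b⁆)
    (hi : ∀ x y : L, ⁅x, i y⁆ = i ⁅x, y⁆) (k : ℕ) {v : T} (hv : v ∈ (LinearMap.range i) ^ k)
    (hv0 : v ≠ 0) {μ : Dual ℂ H} (hμ : WtV v μ) :
    (∃ s : ℂ, v = s • (i e) ^ k) ∨ (k • θ - μ ∈ Cone f ∧ 0 < f (k • θ - μ)) := by
  have hie : WtV (i e) θ := fun t => by rw [hi, he.wt, map_smul]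
  have hgen : ∀ {w : T} {ν : Dual ℂ H}, WtV w ν → w ∈ genWeightSpace T (ν : H → ℂ) := by
    intro w ν hw
    refine weightSpace_le_genWeightSpace T (ν : H → ℂ) ?_
    rw [mem_weightSpace]
    exact hw
  rw [or_iff_not_imp_right]
  intro hnot
  have h1 := pow_le hf he hder hi k hv
  rw [Submodule.span_union, Submodule.mem_sup] at h1
  obtain ⟨a, ha, b, hb, hab⟩ := h1
  obtain ⟨s, rfl⟩ := Submodule.mem_span_singleton.mp ha
  have hind := iSupIndep_genWeightSpace ℂ H T (μ : H → ℂ)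
  have hb' : b ∈ ⨆ (χ : H → ℂ) (_ : χ ≠ μ), genWeightSpace T χ := by
    have h2 : Submodule.span ℂ (lower f (k • θ)) ≤
        ((⨆ (χ : H → ℂ) (_ : χ ≠ μ), genWeightSpace T χ : LieSubmodule ℂ H T) :
          Submodule ℂ T) := by
      rw [Submodule.span_le]
      rintro w ⟨ν, hν, h3⟩
      have hne : (ν : H → ℂ) ≠ μ := by
        intro h4
        have h5 : ν = μ := DFunLike.coe_injective h4
        rw [h5] at h3
        exact hnot h3
      exact (le_iSup₂_of_le (ν : H → ℂ) hne le_rfl :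
        genWeightSpace T (ν : H → ℂ) ≤ ⨆ (χ : H → ℂ) (_ : χ ≠ μ), genWeightSpace T χ) (hgen hν)
    exact h2 hb
  by_cases hk : k • θ = μ
  · refine ⟨s, ?_⟩
    have h2 : b ∈ genWeightSpace T (μ : H → ℂ) := by
      have h3 : b = v - s • (i e) ^ k := by rw [← hab]; abel
      rw [h3]
      refine sub_mem (hgen hμ) ?_
      rw [← hk]
      exact (genWeightSpace T ((k • θ : Dual ℂ H) : H → ℂ)).smul_mem s (hgen (hie.pow hder k))
    have h3 := (LieSubmodule.mem_bot (R := ℂ) (L := H) (M := T) b).mp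
      (hind.le_bot ⟨h2, hb'⟩)
    rw [← hab, h3, add_zero]
  · exfalso
    have h2 : v ∈ ⨆ (χ : H → ℂ) (_ : χ ≠ μ), genWeightSpace T χ := by
      rw [← hab]
      refine add_mem ?_ hb'
      have hne : ((k • θ : Dual ℂ H) : H → ℂ) ≠ μ := fun h4 => hk (DFunLike.coe_injective h4)
      refine (le_iSup₂_of_le ((k • θ : Dual ℂ H) : H → ℂ) hne le_rfl :
        genWeightSpace T ((k • θ : Dual ℂ H) : H → ℂ) ≤
          ⨆ (χ : H → ℂ) (_ : χ ≠ μ), genWeightSpace T χ) ?_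
      exact (genWeightSpace T ((k • θ : Dual ℂ H) : H → ℂ)).smul_mem s (hgen (hie.pow hder k))
    exact hv0 ((LieSubmodule.mem_bot (R := ℂ) (L := H) (M := T) v).mp
      (hind.le_bot ⟨hgen hμ, h2⟩))

variable {κ : Type*} [Fintype κ] {c c' : κ → L}

omit [FiniteDimensional ℂ L] [LieAlgebra.IsKilling ℂ L] in
theorem cross (hder : ∀ (x : L) (a b : T), ⁅x, a * b⁆ = ⁅x, a⁆ * b + a * ⁅x, b⁆)
    (hi : ∀ x y : L, ⁅x, i y⁆ = i ⁅x, y⁆) {γ : ℂ}
    (hrel : ∀ x y : L, ∑ j, i ⁅c j, x⁆ * i ⁅c' j, y⁆ = γ • (i x * i y)) (k : ℕ) :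
    ∀ a ∈ (LinearMap.range i) ^ k, ∀ y,
      ∑ j, ⁅c j, a⁆ * i ⁅c' j, y⁆ = (k * γ) • (a * i y) := by
  induction k with
  | zero =>
    intro a ha y
    rw [pow_zero, Submodule.mem_one] at ha
    obtain ⟨s, rfl⟩ := ha
    have h1 : ∀ j, ⁅c j, algebraMap ℂ T s⁆ = 0 := fun j => by
      rw [Algebra.algebraMap_eq_smul_one, lie_smul, lie_one' hder, smul_zero]
    simp [h1]
  | succ k ih =>
    intro a ha y
    rw [pow_succ] at ha
    induction ha using Submodule.mul_induction_on' with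
    | mem_mul_mem a ha b hb =>
      obtain ⟨x, rfl⟩ := hb
      have h1 : ∀ j, ⁅c j, a * i x⁆ * i ⁅c' j, y⁆ =
          i x * (⁅c j, a⁆ * i ⁅c' j, y⁆) + a * (i ⁅c j, x⁆ * i ⁅c' j, y⁆) := by
        intro j
        rw [hder, hi]
        ring
      simp_rw [h1]
      rw [Finset.sum_add_distrib, ← Finset.mul_sum, ← Finset.mul_sum, ih a ha y, hrel,
        mul_smul_comm, mul_smul_comm, ← mul_assoc, ← mul_assoc, mul_comm (i x) a, ← add_smul]
      congr 1
      push_cast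
      ring
    | add a ha b hb h1 h2 =>
      simp_rw [lie_add, add_mul]
      rw [Finset.sum_add_distrib, h1, h2, ← smul_add]

omit [FiniteDimensional ℂ L] [LieAlgebra.IsKilling ℂ L] in
theorem cas_pow (hder : ∀ (x : L) (a b : T), ⁅x, a * b⁆ = ⁅x, a⁆ * b + a * ⁅x, b⁆)
    (hi : ∀ x y : L, ⁅x, i y⁆ = i ⁅x, y⁆) {γ s₁ : ℂ} (h1 : ∀ x : L, cas c c' x = s₁ • x)
    (hrel : ∀ x y : L, ∑ j, i ⁅c j, x⁆ * i ⁅c' j, y⁆ = γ • (i x * i y)) (k : ℕ) :
    ∃ s : ℂ, ∀ a ∈ (LinearMap.range i) ^ k, cas c c' a = s • a := by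
  have hrel' : ∀ x y : L, ∑ j, i ⁅c' j, x⁆ * i ⁅c j, y⁆ = γ • (i x * i y) := by
    intro x y
    rw [mul_comm (i x), ← hrel]
    exact Finset.sum_congr rfl fun j _ => mul_comm _ _
  induction k with
  | zero =>
    refine ⟨0, fun a ha => ?_⟩
    rw [pow_zero, Submodule.mem_one] at ha
    obtain ⟨s, rfl⟩ := ha
    have h1 : ∀ x : L, ⁅x, algebraMap ℂ T s⁆ = 0 := fun j => by
      rw [Algebra.algebraMap_eq_smul_one, lie_smul, lie_one' hder, smul_zero]
    simp [cas, h1]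
  | succ k ih =>
    obtain ⟨s, hs⟩ := ih
    refine ⟨s + k * γ + k * γ + s₁, fun a ha => ?_⟩
    rw [pow_succ] at ha
    induction ha using Submodule.mul_induction_on' with
    | mem_mul_mem a ha b hb =>
      obtain ⟨x, rfl⟩ := hb
      have h2 := cross hder hi hrel k a ha x
      have h3 := cross hder hi hrel' k a ha x
      have h4 := hs a ha
      have h5 := congrArg i (h1 x)
      unfold cas at h4 h5 ⊢
      rw [map_sum, map_smul] at h5
      have h6 : ∀ j, ⁅c j, ⁅c' j, a * i x⁆⁆ = ⁅c j, ⁅c' j, a⁆⁆ * i x + ⁅c' j, a⁆ * i ⁅c j, x⁆ +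
          ⁅c j, a⁆ * i ⁅c' j, x⁆ + a * i ⁅c j, ⁅c' j, x⁆⁆ := by
        intro j
        rw [hder, lie_add, hder, hder, hi, hi, hi]
        ring
      simp_rw [h6]
      rw [Finset.sum_add_distrib, Finset.sum_add_distrib, Finset.sum_add_distrib,
        ← Finset.sum_mul, ← Finset.mul_sum, h4, h5, h2, h3, smul_mul_assoc, mul_smul_comm,
        ← add_smul, ← add_smul, ← add_smul]
    | add a ha b hb h1 h2 =>
      have h3 : cas c c' (a + b) = cas c c' a + cas c c' b := by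
        unfold cas
        simp_rw [lie_add]
        rw [Finset.sum_add_distrib]
      rw [h3, h1, h2, smul_add]

omit [FiniteDimensional ℂ L] in
theorem cas_eq_cas {κ' : Type*} [Fintype κ'] {d d' : κ' → L} (h : IsCas c c')
    (h' : IsCas d d') (v : T) : cas c c' v = cas d d' v := by
  let B : L →ₗ[ℂ] L →ₗ[ℂ] T :=
    LinearMap.mk₂ ℂ (fun a b => ⁅a, ⁅b, v⁆⁆)
      (fun a a' b => add_lie _ _ _) (fun t a b => smul_lie _ _ _)
      (fun a b b' => by rw [add_lie, lie_add]) (fun t a b => by rw [smul_lie, lie_smul])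
  exact h.sum_eq h' B

end alg

/-- **Kostant's theorem**: let `T` be a commutative algebra with an action of the simple Lie
algebra `L` by derivations and an equivariant map `i : L → T`, in which the quadratic Casimir
relation holds. Then every submodule of `(range i) ^ k` not containing any `(i e) ^ k` is zero. -/
theorem kostant {L : Type*} [LieRing L] [LieAlgebra ℂ L] [FiniteDimensional ℂ L]
    [LieAlgebra.IsSimple ℂ L] {T : Type*} [CommRing T] [Algebra ℂ T] [LieRingModule L T]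
    [LieModule ℂ L T] {i : L →ₗ[ℂ] T}
    (hder : ∀ (x : L) (a b : T), ⁅x, a * b⁆ = ⁅x, a⁆ * b + a * ⁅x, b⁆)
    (hi : ∀ x y : L, ⁅x, i y⁆ = i ⁅x, y⁆) {κ : Type*} [Fintype κ] {c c' : κ → L}
    (hc : IsCas c c') {γ : ℂ}
    (hrel : ∀ x y : L, ∑ j, i ⁅c j, x⁆ * i ⁅c' j, y⁆ = γ • (i x * i y)) (k : ℕ)
    (K : LieSubmodule ℂ L T) (hK : (K : Submodule ℂ T) ≤ (LinearMap.range i) ^ k)
    (hne : ∀ e : L, e ≠ 0 → (i e) ^ k ∉ K) : K = ⊥ := by
  by_contra hbot
  have hkil : LieAlgebra.IsKilling ℂ L := inferInstance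
  have hnt : Nontrivial L := by
    by_contra hcon
    rw [not_nontrivial_iff_subsingleton] at hcon
    exact LieAlgebra.IsSimple.non_abelian ℂ (L := L) ⟨fun a b => Subsingleton.elim _ _⟩
  obtain ⟨x₀, hx₀⟩ := LieAlgebra.exists_isCartanSubalgebra_engel ℂ L
  set H : LieSubalgebra ℂ L := LieSubalgebra.engel ℂ x₀ with hH
  obtain ⟨f, hf⟩ := exists_functional H
  obtain ⟨s₁, hs₁⟩ := exists_cas_eq_smul (V := L) hc
    (fun N => LieAlgebra.IsSimple.eq_bot_or_eq_top N)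
  obtain ⟨s, hs⟩ := cas_pow hder hi hs₁ hrel k
  have hfin : FiniteDimensional ℂ ((LinearMap.range i) ^ k : Submodule ℂ T) := by
    have h1 : (LinearMap.range i).FG := Module.Finite.iff_fg.mp inferInstance
    exact Module.Finite.iff_fg.mpr (h1.pow k)
  have hfinK : FiniteDimensional ℂ K :=
    Submodule.finiteDimensional_of_le hK
  obtain ⟨v, hvK, μ, hv⟩ := exists_hw f K hbot
  have htop : (⊤ : LieSubmodule ℂ L L) ≠ ⊥ := top_ne_bot
  obtain ⟨e, heK, θ, he⟩ := exists_hw f (⊤ : LieSubmodule ℂ L L) htop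
  have hθ := fun α hα => he.nat heK α hα
  have hie : WtV (i e) θ := fun t => by rw [hi, he.wt, map_smul]
  rcases wt_cases hf he hder hi k (hK hvK) hv.ne hv.wt with ⟨t, ht⟩ | ⟨h1, h2⟩
  · have ht0 : t ≠ 0 := by
      rintro rfl
      rw [zero_smul] at ht
      exact hv.ne ht
    refine hne e he.ne ?_
    have h3 : (i e) ^ k = t⁻¹ • v := by rw [ht, smul_smul, inv_mul_cancel₀ ht0, one_smul]
    rw [h3]
    exact K.smul_mem _ hvK
  · have hpow : IsHW f ((i e) ^ k) (k • θ) := by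
      refine ⟨fun h0 => hne e he.ne (by rw [h0]; exact zero_mem _), hie.pow hder k, ?_⟩
      intro α hα x hx
      have h3 : ⁅x, i e⁆ = 0 := by rw [hi, he.top α hα x hx, map_zero]
      have h4 : ∀ m : ℕ, ⁅x, (i e) ^ m⁆ = 0 := by
        intro m
        induction m with
        | zero => rw [pow_zero, lie_one' hder]
        | succ m ih => rw [pow_succ, hder, ih, h3, zero_mul, mul_zero, add_zero]
      exact h4 k
    have h3 : qq f μ = s := by
      have h4 := hs v (hK hvK)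
      rw [cas_eq_cas hc (isCas H), cas_hw f hf hv] at h4
      exact smul_left_injective ℂ hv.ne h4
    have h4 : qq f (k • θ) = s := by
      have h5 : (i e) ^ k ∈ (LinearMap.range i) ^ k :=
        Submodule.pow_mem_pow _ (LinearMap.mem_range_self i e) k
      have h6 := hs _ h5
      rw [cas_eq_cas hc (isCas H), cas_hw f hf hpow] at h6
      exact smul_left_injective ℂ hpow.ne h6
    have h5 := qq_inj f hf (fun α hα => hv.nat hvK α hα) (fun α hα => by
      obtain ⟨n, hn⟩ := hθ α hα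
      refine ⟨k * n, ?_⟩
      rw [LinearMap.smul_apply, hn, nsmul_eq_mul]
      push_cast
      ring) h1 (h3.trans h4.symm)
    rw [h5, sub_self, map_zero] at h2
    exact lt_irrefl _ h2

end Vale.Agent.P292.H180
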