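import Mathlib.Algebra.Lie.Weights.RootSystem
import Mathlib.Algebra.Lie.CartanCriterion
import Mathlib.Algebra.Lie.CartanExists
import Mathlib.Analysis.Complex.Polynomial.Basic

/-! # The canonical tensor of the Killing form and the Casimir operator. -/

namespace Vale.Agent.P292.H180

open Module LieAlgebra

section cas

variable {L : Type*} [LieRing L] [LieAlgebra ℂ L]
  {ι : Type*} [Fintype ι] {κ : Type*} [Fintype κ]

/-- The families `c`, `c'` represent the canonical tensor of the Killing form. -/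
def IsCas (c c' : ι → L) : Prop :=
  ∀ x, ∑ i, killingForm ℂ L (c' i) x • c i = x

variable {c c' : ι → L} {d d' : κ → L}

theorem killing_comm (x y : L) : killingForm ℂ L x y = killingForm ℂ L y x :=
  LieModule.traceForm_comm ℂ L L x y

theorem killing_inv (x y z : L) :
    killingForm ℂ L x ⁅y, z⁆ = - killingForm ℂ L z ⁅y, x⁆ := by
  have h1 : killingForm ℂ L ⁅x, y⁆ z = killingForm ℂ L x ⁅y, z⁆ :=
    LieModule.traceForm_apply_lie_apply ℂ L L x y z
  rw [← h1, ← lie_skew, map_neg, LinearMap.neg_apply, killing_comm]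

variable [LieAlgebra.IsKilling ℂ L]

theorem eq_of_killing {x y : L} (h : ∀ z, killingForm ℂ L x z = killingForm ℂ L y z) :
    x = y := by
  have hnd : (killingForm ℂ L).Nondegenerate := LieAlgebra.IsKilling.killingForm_nondegenerate ℂ L
  rw [← sub_eq_zero]
  refine hnd.1 (x - y) fun z => ?_
  rw [map_sub, LinearMap.sub_apply, h, sub_self]

theorem IsCas.symm (h : IsCas c c') : IsCas c' c := by
  intro x
  refine eq_of_killing fun y => ?_
  rw [map_sum, LinearMap.sum_apply]
  conv_rhs => rw [killing_comm, ← h y, map_sum, LinearMap.sum_apply]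
  refine Finset.sum_congr rfl fun i _ => ?_
  simp only [map_smul, LinearMap.smul_apply, smul_eq_mul]
  rw [mul_comm]

theorem IsCas.sum_eq {V : Type*} [AddCommGroup V] [Module ℂ V] (h : IsCas c c')
    (h' : IsCas d d') (B : L →ₗ[ℂ] L →ₗ[ℂ] V) : ∑ i, B (c i) (c' i) = ∑ j, B (d j) (d' j) := by
  have h1 : ∀ i, B (c i) (c' i) = ∑ j, killingForm ℂ L (d j) (c' i) • B (c i) (d' j) := by
    intro i
    conv_lhs => rw [← h'.symm (c' i), map_sum]
    simp
  have h2 : ∀ j, B (d j) (d' j) = ∑ i, killingForm ℂ L (c' i) (d j) • B (c i) (d' j) := by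
    intro j
    conv_lhs => rw [← h (d j), map_sum]
    simp
  simp_rw [h1, h2]
  rw [Finset.sum_comm]
  refine Finset.sum_congr rfl fun j _ => Finset.sum_congr rfl fun i _ => ?_
  rw [killing_comm]

theorem IsCas.inv {V : Type*} [AddCommGroup V] [Module ℂ V] (h : IsCas c c')
    (B : L →ₗ[ℂ] L →ₗ[ℂ] V) (x : L) :
    ∑ i, (B ⁅x, c i⁆ (c' i) + B (c i) ⁅x, c' i⁆) = 0 := by
  have h1 : ∀ i, B ⁅x, c i⁆ (c' i) =
      ∑ j, killingForm ℂ L (c' j) ⁅x, c i⁆ • B (c j) (c' i) := by
    intro i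
    conv_lhs => rw [← h ⁅x, c i⁆, map_sum, LinearMap.sum_apply]
    simp
  have h2 : ∀ j, B (c j) ⁅x, c' j⁆ =
      ∑ i, killingForm ℂ L (c i) ⁅x, c' j⁆ • B (c j) (c' i) := by
    intro j
    conv_lhs => rw [← h.symm ⁅x, c' j⁆, map_sum]
    simp
  rw [Finset.sum_add_distrib]
  simp_rw [h1, h2]
  rw [Finset.sum_comm, ← Finset.sum_add_distrib]
  refine Finset.sum_eq_zero fun j _ => ?_
  rw [← Finset.sum_add_distrib]
  refine Finset.sum_eq_zero fun i _ => ?_
  rw [killing_inv (c' j) x (c i), ← add_smul, neg_add_cancel, zero_smul]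

variable {V : Type*} [AddCommGroup V] [Module ℂ V] [LieRingModule L V] [LieModule ℂ L V]

/-- The Casimir operator. -/
def cas (c c' : ι → L) (v : V) : V := ∑ i, ⁅c i, ⁅c' i, v⁆⁆

theorem cas_lie (h : IsCas c c') (x : L) (v : V) : ⁅x, cas c c' v⁆ = cas c c' ⁅x, v⁆ := by
  let B : L →ₗ[ℂ] L →ₗ[ℂ] V :=
    LinearMap.mk₂ ℂ (fun a b => ⁅a, ⁅b, v⁆⁆)
      (fun a a' b => add_lie _ _ _) (fun t a b => smul_lie _ _ _)
      (fun a b b' => by rw [add_lie, lie_add]) (fun t a b => by rw [smul_lie, lie_smul])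
  have h1 := h.inv B x
  simp only [B, LinearMap.mk₂_apply] at h1
  unfold cas
  rw [lie_sum, ← sub_eq_zero, ← Finset.sum_sub_distrib, ← h1]
  refine Finset.sum_congr rfl fun i _ => ?_
  rw [leibniz_lie x (c i), leibniz_lie x (c' i) v, lie_add]
  abel

/-- The Casimir operator is a scalar on irreducible modules. -/
theorem exists_cas_eq_smul (h : IsCas c c') [FiniteDimensional ℂ V] [Nontrivial V]
    (hirr : ∀ N : LieSubmodule ℂ L V, N = ⊥ ∨ N = ⊤) :
    ∃ s : ℂ, ∀ v : V, cas c c' v = s • v := by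
  let C : V →ₗ[ℂ] V := ∑ i, (LieModule.toEnd ℂ L V (c i)) ∘ₗ (LieModule.toEnd ℂ L V (c' i))
  have hC : ∀ v, C v = cas c c' v := fun v => by
    simp [C, cas, LinearMap.sum_apply]
  obtain ⟨s, hs⟩ := Module.End.exists_eigenvalue C
  let N : LieSubmodule ℂ L V :=
    { Module.End.eigenspace C s with
      lie_mem := fun {x m} hm => by
        have h1 : C m = s • m := Module.End.mem_eigenspace_iff.mp hm
        refine Module.End.mem_eigenspace_iff.mpr ?_
        rw [hC, ← cas_lie h, ← hC, h1, lie_smul] }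
  have hN : N = ⊤ := by
    refine (hirr N).resolve_left fun h0 => ?_
    obtain ⟨v, hv, hv0⟩ := hs.exists_hasEigenvector
    have h1 : v ∈ N := hv
    rw [h0] at h1
    exact hv0 h1
  refine ⟨s, fun v => ?_⟩
  have h1 : v ∈ N := by rw [hN]; trivial
  rw [← hC]
  exact Module.End.mem_eigenspace_iff.mp h1

end cas

end Vale.Agent.P292.H180
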