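import Vale.Agent.P292.H180.Quad
import Vale.Agent.P292.H442.Ext

/-! # Contact Fano manifolds: quadrics, and Poisson derivations are Hamiltonian. -/

namespace Vale.Agent.P292.H180

open Module LieAlgebra MvPolynomial Vale.Agent.P292.H442

universe u v

/-- The canonical tensor exists. -/
theorem exists_isCas (L : Type u) [LieRing L] [LieAlgebra ℂ L] [FiniteDimensional ℂ L]
    [LieAlgebra.IsKilling ℂ L] :
    ∃ (ι : Type u) (_ : Fintype ι) (c c' : ι → L), IsCas c c' := by
  obtain ⟨x₀, hx₀⟩ := LieAlgebra.exists_isCartanSubalgebra_engel ℂ L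
  exact ⟨_, inferInstance, _, _, isCas (LieSubalgebra.engel ℂ x₀)⟩

variable {R : Type u} [CommRing R] [Algebra ℂ R] {𝒜 : ℕ → Submodule ℂ R} [GradedAlgebra 𝒜]
  {P : R →ₗ[ℂ] R →ₗ[ℂ] R}

theorem piece_irreducible {hX : IsContactFano 𝒜 P} (hC : HasCore hX) (k : ℕ)
    (N : LieSubmodule ℂ (LieOne hX) (Piece hX k)) : N = ⊥ ∨ N = ⊤ := by
  have h1 := irreducible hC k ((N : Submodule ℂ (Piece hX k)).map (Piece.incl hX k)) (by
    rintro _ ⟨z, -, rfl⟩; exact Piece.incl_mem hX k z) (by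
    rintro u hu _ ⟨z, hz, rfl⟩
    exact ⟨⁅LieOne.mk hX hu, z⁆, N.lie_mem hz, rfl⟩)
  rcases h1 with h1 | h1
  · left
    rw [LieSubmodule.eq_bot_iff]
    intro z hz
    have h2 : Piece.incl hX k z ∈
        (N : Submodule ℂ (Piece hX k)).map (Piece.incl hX k) := ⟨z, hz, rfl⟩
    rw [h1, Submodule.mem_bot] at h2
    exact Piece.incl_injective hX k (by rw [h2, map_zero])
  · right
    rw [eq_top_iff]
    intro z _
    have h2 : Piece.incl hX k z ∈
        (N : Submodule ℂ (Piece hX k)).map (Piece.incl hX k) := by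
      rw [h1]; exact Piece.incl_mem hX k z
    obtain ⟨w, hw, hwz⟩ := h2
    rw [← Piece.incl_injective hX k hwz]
    exact hw

/-- The quadratic relation in the section ring. -/
theorem exists_rel {hX : IsContactFano 𝒜 P} (hC : HasCore hX) {ι : Type*} [Fintype ι]
    [LieAlgebra.IsSimple ℂ (LieOne hX)]
    {c c' : ι → LieOne hX} (hc : IsCas c c') : ∃ γ : ℂ, ∀ x y : LieOne hX,
      ∑ j, LieOne.incl hX ⁅c j, x⁆ * LieOne.incl hX ⁅c' j, y⁆ =
        γ • (LieOne.incl hX x * LieOne.incl hX y) := by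
  have hdom := hX.domain
  have hnt1 : Nontrivial (LieOne hX) := by
    by_contra hcon
    rw [not_nontrivial_iff_subsingleton] at hcon
    exact LieAlgebra.IsSimple.non_abelian ℂ (L := LieOne hX)
      ⟨fun a b => Subsingleton.elim _ _⟩
  obtain ⟨s₁, hs₁⟩ := exists_cas_eq_smul (V := LieOne hX) hc
    (fun N => LieAlgebra.IsSimple.eq_bot_or_eq_top N)
  have hmul : ∀ x y : LieOne hX, LieOne.incl hX x * LieOne.incl hX y ∈ 𝒜 2 := fun x y =>
    SetLike.mul_mem_graded (LieOne.incl_mem hX x) (LieOne.incl_mem hX y)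
  have hnt2 : Nontrivial (Piece hX 2) := by
    obtain ⟨x, hx⟩ := exists_ne (0 : LieOne hX)
    refine ⟨⟨Piece.mk hX (hmul x x), 0, fun h0 => ?_⟩⟩
    have h1 := congrArg (Piece.incl hX 2) h0
    rw [Piece.incl_mk, map_zero, mul_self_eq_zero] at h1
    exact hx (LieOne.incl_injective hX (by rw [h1, map_zero]))
  obtain ⟨s₂, hs₂⟩ := exists_cas_eq_smul (V := Piece hX 2) hc (piece_irreducible hC 2)
  refine ⟨2⁻¹ * (s₂ - 2 * s₁), fun x y => ?_⟩
  let B : LieOne hX →ₗ[ℂ] LieOne hX →ₗ[ℂ] R :=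
    LinearMap.mk₂ ℂ (fun a b => LieOne.incl hX ⁅a, x⁆ * LieOne.incl hX ⁅b, y⁆)
      (fun a a' b => by rw [add_lie, map_add, add_mul])
      (fun t a b => by rw [smul_lie, map_smul, smul_mul_assoc])
      (fun a b b' => by rw [add_lie, map_add, mul_add])
      (fun t a b => by rw [smul_lie, map_smul, mul_smul_comm])
  have hsym : ∑ j, LieOne.incl hX ⁅c' j, x⁆ * LieOne.incl hX ⁅c j, y⁆ =
      ∑ j, LieOne.incl hX ⁅c j, x⁆ * LieOne.incl hX ⁅c' j, y⁆ := hc.symm.sum_eq hc B
  have h1 := congrArg (Piece.incl hX 2) (hs₂ (Piece.mk hX (hmul x y)))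
  have h2 := congrArg (LieOne.incl hX) (hs₁ x)
  have h3 := congrArg (LieOne.incl hX) (hs₁ y)
  unfold cas at h1 h2 h3
  simp only [map_sum, Piece.incl_lie, Piece.incl_mk, map_smul, LieOne.incl_lie] at h1 h2 h3
  have h4 : ∀ j, P (LieOne.incl hX (c j)) (P (LieOne.incl hX (c' j))
      (LieOne.incl hX x * LieOne.incl hX y)) =
      P (LieOne.incl hX (c j)) (P (LieOne.incl hX (c' j)) (LieOne.incl hX x)) *
        LieOne.incl hX y +
      LieOne.incl hX ⁅c' j, x⁆ * LieOne.incl hX ⁅c j, y⁆ +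
      LieOne.incl hX ⁅c j, x⁆ * LieOne.incl hX ⁅c' j, y⁆ +
      LieOne.incl hX x *
        P (LieOne.incl hX (c j)) (P (LieOne.incl hX (c' j)) (LieOne.incl hX y)) := by
    intro j
    simp only [LieOne.incl_lie, hX.leibniz, map_add]
    ring
  simp_rw [h4] at h1
  rw [Finset.sum_add_distrib, Finset.sum_add_distrib, Finset.sum_add_distrib,
    ← Finset.sum_mul, ← Finset.mul_sum, h2, h3, hsym, smul_mul_assoc, mul_smul_comm] at h1
  set A := ∑ j, LieOne.incl hX ⁅c j, x⁆ * LieOne.incl hX ⁅c' j, y⁆ with hA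
  set M := LieOne.incl hX x * LieOne.incl hX y with hM
  have h5 : (2 : ℂ) • A = (s₂ - 2 * s₁) • M := by
    rw [sub_smul, ← h1, two_smul, mul_smul, two_smul]
    abel
  rw [mul_smul, ← h5, smul_smul, inv_mul_cancel₀ two_ne_zero, one_smul]

/-- **The ideal of a contact Fano manifold is generated by quadrics.** -/
theorem quadrics {hX : IsContactFano 𝒜 P} (hC : HasCore hX) {κ : Type v}
    (b : Basis κ ℂ (𝒜 1)) :
    RingHom.ker (aeval (fun j => (b j : R)) : MvPolynomial κ ℂ →ₐ[ℂ] R) =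
      Ideal.span {G | G.IsHomogeneous 2 ∧ aeval (fun j => (b j : R)) G = 0} := by
  have hdom := hX.domain
  have hsimple : LieAlgebra.IsSimple ℂ (LieOne hX) := by
    obtain ⟨_, _, _, _, hC, -⟩ := hC
    exact hC.isSimple
  obtain ⟨ι, _, c, c', hc⟩ := exists_isCas (LieOne hX)
  obtain ⟨γ, hγ⟩ := exists_rel hC hc
  let b' : Basis κ ℂ (LieOne hX) := b
  exact ker_eq (L := LieOne hX) (i := LieOne.incl hX) b' (act := fun x => hX.ham (LieOne.incl hX x))
    (fun x y => rfl) hc hγ (LieOne.incl_injective hX) 𝒜 (fun x => LieOne.incl_mem hX x)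

/-- The Poisson center consists of the constants. -/
theorem center {hX : IsContactFano 𝒜 P} (hC : HasCore hX) (g : R)
    (hg : ∀ a ∈ 𝒜 1, P a g = 0) : ∃ t : ℂ, g = algebraMap ℂ R t := by
  classical
  have hdom := hX.domain
  obtain ⟨e, h, f, x, hC, -⟩ := hC
  have hcomp : ∀ k, 0 < k → ((DirectSum.decompose 𝒜 g k : 𝒜 k) : R) = 0 := by
    intro k hk
    set w : R := ((DirectSum.decompose 𝒜 g k : 𝒜 k) : R) with hw
    have hwk : w ∈ 𝒜 k := SetLike.coe_mem _
    have hPw : ∀ a ∈ 𝒜 1, P a w = 0 := by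
      intro a ha
      have h1 : ∀ l, P a ((DirectSum.decompose 𝒜 g l : 𝒜 l) : R) ∈ 𝒜 l := fun l =>
        hX.mem_of_mem_one ha (SetLike.coe_mem _)
      have h2 : P a g = ∑ l ∈ (DirectSum.decompose 𝒜 g).support,
          P a ((DirectSum.decompose 𝒜 g l : 𝒜 l) : R) := by
        rw [← map_sum, DirectSum.sum_support_decompose]
      rw [hg a ha] at h2
      have h3 := congrArg (GradedRing.proj 𝒜 k) h2
      rw [map_zero, map_sum] at h3
      have h4 : ∀ l, GradedRing.proj 𝒜 k (P a ((DirectSum.decompose 𝒜 g l : 𝒜 l) : R)) =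
          if l = k then P a ((DirectSum.decompose 𝒜 g l : 𝒜 l) : R) else 0 := by
        intro l
        rw [GradedRing.proj_apply]
        split_ifs with hl
        · subst hl
          exact DirectSum.decompose_of_mem_same 𝒜 (h1 l)
        · exact DirectSum.decompose_of_mem_ne 𝒜 (h1 l) hl
      simp_rw [h4] at h3
      rw [Finset.sum_ite_eq'] at h3
      by_cases hk : k ∈ (DirectSum.decompose 𝒜 g).support
      · rw [if_pos hk] at h3
        exact h3.symm
      · have h5 : DirectSum.decompose 𝒜 g k = 0 := by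
          simpa using hk
        rw [hw, h5, ZeroMemClass.coe_zero, map_zero]
    by_contra hne
    have h1 := hC.e_pow_mem k (Submodule.span ℂ {w}) (by
      rw [Submodule.span_singleton_le_iff_mem]; exact hwk) (by
      intro u hu r hr
      obtain ⟨t, rfl⟩ := Submodule.mem_span_singleton.mp hr
      rw [map_smul, hPw u hu, smul_zero]
      exact zero_mem _) ⟨w, Submodule.mem_span_singleton_self w, hne⟩
    obtain ⟨t, ht⟩ := Submodule.mem_span_singleton.mp h1
    have h2 : P f (e ^ k) = 0 := by rw [← ht, map_smul, hPw f hC.hf, smul_zero]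
    have h3 : P f e = - h := by rw [hX.skew, hC.ef]
    rw [hX.P_pow_right, h3] at h2
    have h4 : (k : R) ≠ 0 := by
      have h5 : ((k : ℂ)) ≠ 0 := by exact_mod_cast hk.ne'
      intro h6
      apply h5
      have h7 : algebraMap ℂ R (k : ℂ) = 0 := by rw [map_natCast, h6]
      exact (map_eq_zero_iff _ (FaithfulSMul.algebraMap_injective ℂ R)).mp h7
    exact (mul_ne_zero (mul_ne_zero h4 (pow_ne_zero _ hC.e_ne_zero))
      (neg_ne_zero.mpr hC.h_ne_zero)) h2
  have h0 : g = ((DirectSum.decompose 𝒜 g 0 : 𝒜 0) : R) := by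
    conv_lhs => rw [← DirectSum.sum_support_decompose 𝒜 g]
    by_cases hk : 0 ∈ (DirectSum.decompose 𝒜 g).support
    · rw [Finset.sum_eq_single_of_mem 0 hk]
      intro l _ hl
      exact hcomp l (Nat.pos_of_ne_zero hl)
    · have h5 : DirectSum.decompose 𝒜 g 0 = 0 := by simpa using hk
      rw [h5, ZeroMemClass.coe_zero]
      refine Finset.sum_eq_zero fun l hl => ?_
      refine hcomp l (Nat.pos_of_ne_zero ?_)
      rintro rfl
      exact hk hl
  obtain ⟨t, ht⟩ := hX.connected _ (SetLike.coe_mem (DirectSum.decompose 𝒜 g 0))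
  exact ⟨t, by rw [h0, ht]⟩

/-- **Every Poisson derivation of the section ring is Hamiltonian.** -/
theorem inner {hX : IsContactFano 𝒜 P} (hC : HasCore hX) (D : Derivation ℂ R R)
    (hD : ∀ a b, D (P a b) = P (D a) b + P a (D b)) : ∃ h : R, ∀ a, D a = P h a := by
  classical
  have hsimple : LieAlgebra.IsSimple ℂ (LieOne hX) := by
    obtain ⟨_, _, _, _, hC, -⟩ := hC
    exact hC.isSimple
  -- the projections as linear maps
  let pr : ∀ k, R →ₗ[ℂ] Piece hX k := fun k =>
    { toFun := fun r => Piece.mk hX (SetLike.coe_mem (DirectSum.decompose 𝒜 r k))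
      map_add' := fun r s => by
        apply Piece.incl_injective hX k
        change ((DirectSum.decompose 𝒜 (r + s) k : 𝒜 k) : R) =
          ((DirectSum.decompose 𝒜 r k : 𝒜 k) : R) + ((DirectSum.decompose 𝒜 s k : 𝒜 k) : R)
        rw [DirectSum.decompose_add, DirectSum.add_apply, Submodule.coe_add]
      map_smul' := fun t r => by
        apply Piece.incl_injective hX k
        change ((DirectSum.decompose 𝒜 (t • r) k : 𝒜 k) : R) =
          t • ((DirectSum.decompose 𝒜 r k : 𝒜 k) : R)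
        rw [DirectSum.decompose_smul, DirectSum.smul_apply, Submodule.coe_smul] }
  have hpr : ∀ k r, Piece.incl hX k (pr k r) = ((DirectSum.decompose 𝒜 r k : 𝒜 k) : R) :=
    fun k r => rfl
  have hprP : ∀ k (a : LieOne hX) (r : R), pr k (P (LieOne.incl hX a) r) = ⁅a, pr k r⁆ := by
    intro k a r
    apply Piece.incl_injective hX k
    rw [Piece.incl_lie, hpr, hpr]
    have h1 : ∀ l, P (LieOne.incl hX a) ((DirectSum.decompose 𝒜 r l : 𝒜 l) : R) ∈ 𝒜 l :=
      fun l => hX.mem_of_mem_one (LieOne.incl_mem hX a) (SetLike.coe_mem _)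
    have h2 : P (LieOne.incl hX a) r = ∑ l ∈ (DirectSum.decompose 𝒜 r).support,
        P (LieOne.incl hX a) ((DirectSum.decompose 𝒜 r l : 𝒜 l) : R) := by
      rw [← map_sum, DirectSum.sum_support_decompose]
    have h3 := congrArg (GradedRing.proj 𝒜 k) h2
    rw [map_sum] at h3
    have h4 : ∀ l, GradedRing.proj 𝒜 k
        (P (LieOne.incl hX a) ((DirectSum.decompose 𝒜 r l : 𝒜 l) : R)) =
        if l = k then P (LieOne.incl hX a) ((DirectSum.decompose 𝒜 r l : 𝒜 l) : R) else 0 := by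
      intro l
      rw [GradedRing.proj_apply]
      split_ifs with hl
      · subst hl
        exact DirectSum.decompose_of_mem_same 𝒜 (h1 l)
      · exact DirectSum.decompose_of_mem_ne 𝒜 (h1 l) hl
    simp_rw [h4] at h3
    rw [Finset.sum_ite_eq', GradedRing.proj_apply] at h3
    rw [h3]
    by_cases hk : k ∈ (DirectSum.decompose 𝒜 r).support
    · rw [if_pos hk]
    · rw [if_neg hk]
      have h5 : DirectSum.decompose 𝒜 r k = 0 := by simpa using hk
      rw [h5, ZeroMemClass.coe_zero, map_zero]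
  have hcoc : ∀ k, ∃ v : Piece hX k, ∀ a : LieOne hX, pr k (D (LieOne.incl hX a)) = ⁅a, v⁆ := by
    intro k
    obtain ⟨v, hv⟩ := exists_of_cocycle (L := LieOne hX) (Module.finrank ℂ (Piece hX k))
      (Piece hX k) rfl (pr k ∘ₗ (D : R →ₗ[ℂ] R) ∘ₗ LieOne.incl hX) (fun a b => by
        change pr k (D (LieOne.incl hX ⁅a, b⁆)) = ⁅a, pr k (D (LieOne.incl hX b))⁆ -
          ⁅b, pr k (D (LieOne.incl hX a))⁆
        rw [LieOne.incl_lie, hD, map_add, hprP, hX.skew (D (LieOne.incl hX a)), map_neg, hprP]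
        abel)
    exact ⟨v, fun a => hv a⟩
  choose v hv using hcoc
  let bs := finBasis ℂ (LieOne hX)
  let s : Finset ℕ := Finset.univ.biUnion
    (fun j => (DirectSum.decompose 𝒜 (D (LieOne.incl hX (bs j)))).support)
  have hsum : ∀ a : LieOne hX, D (LieOne.incl hX a) =
      ∑ k ∈ s, Piece.incl hX k (pr k (D (LieOne.incl hX a))) := by
    intro a
    have h1 : (D : R →ₗ[ℂ] R) ∘ₗ LieOne.incl hX =
        (∑ k ∈ s, Piece.incl hX k ∘ₗ pr k) ∘ₗ ((D : R →ₗ[ℂ] R) ∘ₗ LieOne.incl hX) := by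
      refine bs.ext fun j => ?_
      rw [LinearMap.comp_apply, LinearMap.comp_apply, LinearMap.sum_apply]
      change D (LieOne.incl hX (bs j)) =
        ∑ k ∈ s, ((DirectSum.decompose 𝒜 (D (LieOne.incl hX (bs j))) k : 𝒜 k) : R)
      conv_lhs => rw [← DirectSum.sum_support_decompose 𝒜 (D (LieOne.incl hX (bs j)))]
      refine Finset.sum_subset (fun k hk => ?_) (fun k _ hk => ?_)
      · exact Finset.mem_biUnion.mpr ⟨j, Finset.mem_univ _, hk⟩
      · have h5 : DirectSum.decompose 𝒜 (D (LieOne.incl hX (bs j))) k = 0 := by simpa using hk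
        rw [h5, ZeroMemClass.coe_zero]
    have h2 := LinearMap.congr_fun h1 a
    rw [LinearMap.comp_apply, LinearMap.comp_apply, LinearMap.sum_apply] at h2
    exact h2
  refine ⟨-∑ k ∈ s, Piece.incl hX k (v k), fun a => ?_⟩
  have h1 : ∀ a ∈ 𝒜 1, D a = hX.ham (-∑ k ∈ s, Piece.incl hX k (v k)) a := by
    intro a ha
    have h2 := hsum (LieOne.mk hX ha)
    rw [LieOne.incl_mk] at h2
    rw [h2, hX.ham_apply, map_neg, LinearMap.neg_apply, ← hX.skew, map_sum]
    refine Finset.sum_congr rfl fun k _ => ?_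
    have h3 := hv k (LieOne.mk hX ha)
    rw [LieOne.incl_mk] at h3
    rw [h3, Piece.incl_lie, LieOne.incl_mk]
  have h2 : a ∈ Algebra.adjoin ℂ (𝒜 1 : Set R) := by rw [hC.adjoin]; trivial
  rw [← hX.ham_apply]
  induction h2 using Algebra.adjoin_induction with
  | mem a ha => exact h1 a ha
  | algebraMap t => rw [Derivation.map_algebraMap, Derivation.map_algebraMap]
  | add p q _ _ hp hq => rw [map_add, map_add, hp, hq]
  | mul p q _ _ hp hq => rw [Derivation.leibniz, Derivation.leibniz, hp, hq]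

/-- Derivations of degree zero come from contact vector fields. -/
theorem inner_zero {hX : IsContactFano 𝒜 P} (hC : HasCore hX) (D : Derivation ℂ R R)
    (hD : ∀ a b, D (P a b) = P (D a) b + P a (D b)) (hD0 : ∀ a ∈ 𝒜 1, D a ∈ 𝒜 1) :
    ∃! h : R, h ∈ 𝒜 1 ∧ ∀ a, D a = P h a := by
  classical
  obtain ⟨h, hh⟩ := inner hC D hD
  have hadj := hC.adjoin
  have key : ∀ a ∈ 𝒜 1, D a = P ((DirectSum.decompose 𝒜 h 1 : 𝒜 1) : R) a := by
    intro a ha
    have h1 : ∀ l, P ((DirectSum.decompose 𝒜 h l : 𝒜 l) : R) a ∈ 𝒜 l := fun l =>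
      hX.degree l 1 l (by omega) _ (SetLike.coe_mem _) _ ha
    have h2 : P h a = ∑ l ∈ (DirectSum.decompose 𝒜 h).support,
        P ((DirectSum.decompose 𝒜 h l : 𝒜 l) : R) a := by
      conv_lhs => rw [← DirectSum.sum_support_decompose 𝒜 h]
      rw [map_sum, LinearMap.sum_apply]
    have h3 := congrArg (GradedRing.proj 𝒜 1) h2
    rw [map_sum] at h3
    have h4 : ∀ l, GradedRing.proj 𝒜 1 (P ((DirectSum.decompose 𝒜 h l : 𝒜 l) : R) a) =
        if l = 1 then P ((DirectSum.decompose 𝒜 h l : 𝒜 l) : R) a else 0 := by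
      intro l
      rw [GradedRing.proj_apply]
      split_ifs with hl
      · subst hl
        exact DirectSum.decompose_of_mem_same 𝒜 (h1 1)
      · exact DirectSum.decompose_of_mem_ne 𝒜 (h1 l) hl
    simp_rw [h4] at h3
    rw [Finset.sum_ite_eq', GradedRing.proj_apply, ← hh a,
      DirectSum.decompose_of_mem_same 𝒜 (hD0 a ha)] at h3
    rw [h3]
    split_ifs with hk
    · rfl
    · have h5 : DirectSum.decompose 𝒜 h 1 = 0 := by simpa using hk
      rw [h5, ZeroMemClass.coe_zero, map_zero, LinearMap.zero_apply]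
  have key2 : ∀ a, D a = P ((DirectSum.decompose 𝒜 h 1 : 𝒜 1) : R) a := by
    intro a
    have h2 : a ∈ Algebra.adjoin ℂ (𝒜 1 : Set R) := by rw [hadj]; trivial
    rw [← hX.ham_apply]
    induction h2 using Algebra.adjoin_induction with
    | mem a ha => exact key a ha
    | algebraMap t => rw [Derivation.map_algebraMap, Derivation.map_algebraMap]
    | add p q _ _ hp hq => rw [map_add, map_add, hp, hq]
    | mul p q _ _ hp hq => rw [Derivation.leibniz, Derivation.leibniz, hp, hq]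
  refine ⟨_, ⟨SetLike.coe_mem (DirectSum.decompose 𝒜 h 1), key2⟩, ?_⟩
  rintro g ⟨hg, hg2⟩
  rw [← sub_eq_zero]
  obtain ⟨t, ht⟩ := center hC (g - ((DirectSum.decompose 𝒜 h 1 : 𝒜 1) : R)) (fun a _ => by
    rw [hX.skew, map_sub, LinearMap.sub_apply, ← hg2, ← key2, sub_self, neg_zero])
  have h1 : algebraMap ℂ R t ∈ 𝒜 1 := by
    rw [← ht]
    exact sub_mem hg (SetLike.coe_mem _)
  have h0 : algebraMap ℂ R t ∈ 𝒜 0 := SetLike.algebraMap_mem_graded 𝒜 t
  rw [ht]
  have h2 := DirectSum.decompose_of_mem_same 𝒜 h1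
  have h3 := DirectSum.decompose_of_mem_ne 𝒜 h0 (show (0 : ℕ) ≠ 1 by omega)
  rw [← h2, h3]

end Vale.Agent.P292.H180
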