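import Vale.Agent.P292.H180.Roots

/-! # Highest weight vectors and the Casimir operator. -/

namespace Vale.Agent.P292.H180

open Module LieAlgebra LieAlgebra.IsKilling LieModule

section hw

variable {L : Type*} [LieRing L] [LieAlgebra ℂ L] [FiniteDimensional ℂ L]
  [LieAlgebra.IsKilling ℂ L] {H : LieSubalgebra ℂ L} [H.IsCartanSubalgebra]

theorem mem_of_roots (N : Submodule ℂ L) (hH : ∀ h : H, (h : L) ∈ N)
    (hα : ∀ α : H.root, ∀ x ∈ rootSpace H α.1, x ∈ N) (x : L) : x ∈ N := by
  have h1 : ((H.toLieSubmodule ⊔ ⨆ α : Weight ℂ H L, ⨆ (_ : α.IsNonZero), rootSpace H α :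
      LieSubmodule ℂ H L) : Submodule ℂ L) ≤ N := by
    rw [LieSubmodule.sup_toSubmodule, LieSubmodule.iSup_toSubmodule]
    refine sup_le (fun y hy => ?_) (iSup_le fun α => ?_)
    · exact hH ⟨y, hy⟩
    · rw [LieSubmodule.iSup_toSubmodule]
      refine iSup_le fun hα' => fun y hy => ?_
      exact hα ⟨α, Finset.mem_filter.mpr ⟨Finset.mem_univ _, hα'⟩⟩ y hy
  rw [cartan_sup_iSup_rootSpace_eq_top] at h1
  exact h1 trivial

theorem exists_ef (α : H.root) : ∃ e f : L, e ∈ rootSpace H α.1 ∧ f ∈ rootSpace H (-α.1) ∧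
    IsSl2Triple (coroot α.1 : L) e f := by
  obtain ⟨h, e, f, ht, he, hf⟩ := exists_isSl2Triple_of_weight_isNonZero (nz α)
  have h1 := ht.h_eq_coroot (nz α) he hf
  exact ⟨e, f, he, hf, h1 ▸ ht⟩

/-- A vector in the root space. -/
noncomputable def ee (α : H.root) : L := (exists_ef α).choose

/-- A vector in the opposite root space. -/
noncomputable def ff (α : H.root) : L := (exists_ef α).choose_spec.choose

theorem ee_mem (α : H.root) : ee α ∈ rootSpace H α.1 := (exists_ef α).choose_spec.choose_spec.1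

theorem ff_mem (α : H.root) : ff α ∈ rootSpace H (-α.1) :=
  (exists_ef α).choose_spec.choose_spec.2.1

theorem sl2 (α : H.root) : IsSl2Triple (coroot α.1 : L) (ee α) (ff α) :=
  (exists_ef α).choose_spec.choose_spec.2.2

theorem killing_ee_ff (α : H.root) : aa α * killingForm ℂ L (ff α) (ee α) = 1 := by
  have h1 := lie_eq_killingForm_smul_of_mem_rootSpace_of_mem_rootSpace_neg (ee_mem α) (ff_mem α)
  rw [(sl2 α).lie_e_f] at h1
  have h2 : (((cartanEquivDual H).symm α.1.toLinear : H) : L) = aa α • (coroot α.1 : L) := by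
    have h3 := tt_eq α
    unfold tt at h3
    rw [h3]
    rfl
  rw [h2, smul_smul] at h1
  have h3 : (1 - killingForm ℂ L (ee α) (ff α) * aa α) • (coroot α.1 : L) = 0 := by
    rw [sub_smul, one_smul, ← h1, sub_self]
  rcases smul_eq_zero.mp h3 with h4 | h4
  · rw [killing_comm]
    linear_combination -h4
  · exact absurd h4 (sl2 α).h_ne_zero

variable (H) in
/-- The adapted family. -/
noncomputable def cc : Fin (finrank ℂ H) ⊕ H.root → L :=
  Sum.elim (fun i => ((finBasis ℂ H i : H) : L)) (fun α => aa α • ee α)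

variable (H) in
/-- The dual family. -/
noncomputable def cc' : Fin (finrank ℂ H) ⊕ H.root → L :=
  Sum.elim (fun i => ((tt ((finBasis ℂ H).coord i) : H) : L)) ff

theorem coe_mem_rootSpace_zero (h : H) : (h : L) ∈ rootSpace H (0 : H → ℂ) := by
  rw [rootSpace_zero_eq]
  exact h.2

variable (H) in
theorem isCas : IsCas (cc H) (cc' H) := by
  let Φ : L →ₗ[ℂ] L := ∑ i, (killingForm ℂ L (cc' H i)).smulRight (cc H i)
  have hΦ : ∀ x, Φ x = ∑ i, killingForm ℂ L (cc' H i) x • cc H i := fun x => by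
    simp [Φ, LinearMap.sum_apply]
  intro x
  rw [← hΦ]
  change x ∈ LinearMap.eqLocus Φ LinearMap.id
  refine mem_of_roots (H := H) _ (fun h => ?_) (fun α y hy => ?_) x
  · change Φ h = h
    rw [hΦ, Fintype.sum_sum_type]
    have h1 : ∀ α : H.root, killingForm ℂ L (cc' H (Sum.inr α)) h = 0 := fun α =>
      killingForm_apply_eq_zero_of_mem_rootSpace_of_add_ne_zero ℂ L H (ff_mem α)
        (coe_mem_rootSpace_zero h) (by
          rw [add_zero]
          intro h0
          exact nz α (neg_eq_zero.mp h0))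
    simp_rw [h1, zero_smul, Finset.sum_const_zero, add_zero]
    have h2 : ∀ i, killingForm ℂ L (cc' H (Sum.inl i)) h • cc H (Sum.inl i) =
        (((finBasis ℂ H).coord i h • finBasis ℂ H i : H) : L) := by
      intro i
      change killingForm ℂ L (tt ((finBasis ℂ H).coord i) : L) h • _ = _
      rw [killing_tt]
      rfl
    simp_rw [h2]
    rw [← AddSubmonoidClass.coe_finsetSum]
    congr 1
    exact (finBasis ℂ H).sum_repr h
  · change Φ y = y
    rw [hΦ, Fintype.sum_sum_type]
    have h1 : ∀ i, killingForm ℂ L (cc' H (Sum.inl i)) y = 0 := fun i =>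
      killingForm_apply_eq_zero_of_mem_rootSpace_of_add_ne_zero ℂ L H
        (coe_mem_rootSpace_zero (tt ((finBasis ℂ H).coord i))) hy (by
          rw [zero_add]
          exact nz α)
    simp_rw [h1, zero_smul, Finset.sum_const_zero, zero_add]
    rw [Finset.sum_eq_single α]
    · have hfin : finrank ℂ (rootSpace H α.1) = 1 := finrank_rootSpace_eq_one α.1 (nz α)
      have hne : (⟨ee α, ee_mem α⟩ : rootSpace H α.1) ≠ 0 := fun h0 =>
        (sl2 α).e_ne_zero (congrArg Subtype.val h0)
      obtain ⟨s, hs⟩ := (finrank_eq_one_iff_of_nonzero' _ hne).mp hfin ⟨y, hy⟩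
      have hs' : y = s • ee α := (congrArg Subtype.val hs).symm
      rw [hs']
      change killingForm ℂ L (ff α) (s • ee α) • (aa α • ee α) = _
      rw [map_smul, smul_smul, smul_eq_mul, mul_assoc, mul_comm _ (aa α), killing_ee_ff, mul_one]
    · intro β _ hβ
      rw [show killingForm ℂ L (cc' H (Sum.inr β)) y = 0 from
        killingForm_apply_eq_zero_of_mem_rootSpace_of_add_ne_zero ℂ L H (ff_mem β) hy (by
          intro h0
          apply hβ
          apply Subtype.ext
          ext h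
          have := congrFun h0 h
          simp only [Pi.add_apply, Pi.neg_apply, Pi.zero_apply] at this
          linear_combination -this), zero_smul]
    · intro h0; exact absurd (Finset.mem_univ _) h0

/-- The opposite root. -/
noncomputable def opp (α : H.root) : H.root :=
  ⟨-α.1, Finset.mem_filter.mpr ⟨Finset.mem_univ _, (nz α).neg⟩⟩

theorem opp_toLinear (α : H.root) : (opp α).1.toLinear = - α.1.toLinear := rfl

section vec

variable {V : Type*} [AddCommGroup V] [Module ℂ V] [LieRingModule L V] [LieModule ℂ L V]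

/-- Highest weight vectors. -/
structure IsHW (f : Dual ℂ H →+ ℚ) (v : V) (μ : Dual ℂ H) : Prop where
  ne : v ≠ 0
  wt : ∀ h : H, ⁅(h : L), v⁆ = μ h • v
  top : ∀ α : H.root, 0 < f α.1.toLinear → ∀ x ∈ rootSpace H α.1, ⁅x, v⁆ = 0

/-- The Casimir operator on a highest weight vector. -/
theorem cas_hw (f : Dual ℂ H →+ ℚ) (hf : ∀ α : H.root, f (α.1.toLinear) ≠ 0) {v : V}
    {μ : Dual ℂ H} (hv : IsHW f v μ) : cas (cc H) (cc' H) v =
      (μ (tt μ) + ∑ α ∈ Finset.univ.filter (fun α : H.root => 0 < f α.1.toLinear),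
        μ (tt α.1.toLinear)) • v := by
  unfold cas
  rw [Fintype.sum_sum_type, add_smul]
  congr 1
  · have h1 : ∀ i, ⁅cc H (Sum.inl i), ⁅cc' H (Sum.inl i), v⁆⁆ =
        ((finBasis ℂ H).coord i (tt μ) * μ (finBasis ℂ H i)) • v := by
      intro i
      change ⁅((finBasis ℂ H i : H) : L), ⁅((tt ((finBasis ℂ H).coord i) : H) : L), v⁆⁆ = _
      rw [hv.wt, lie_smul, hv.wt, smul_smul, apply_tt_comm]
    simp_rw [h1]
    rw [← Finset.sum_smul]
    congr 1
    conv_rhs => rw [← (finBasis ℂ H).sum_repr (tt μ)]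
    rw [map_sum]
    refine Finset.sum_congr rfl fun i _ => ?_
    rw [map_smul]
    rfl
  · rw [Finset.sum_smul, Finset.sum_filter]
    refine Finset.sum_congr rfl fun α _ => ?_
    change ⁅aa α • ee α, ⁅ff α, v⁆⁆ = _
    split_ifs with hα
    · rw [smul_lie, leibniz_lie, (sl2 α).lie_e_f, hv.wt, hv.top α hα _ (ee_mem α), lie_zero,
        add_zero, smul_smul, tt_eq, map_smul, smul_eq_mul]
    · have h1 : 0 < f (opp α).1.toLinear := by
        rw [opp_toLinear, map_neg]
        have := hf α
        rcases lt_trichotomy (f α.1.toLinear) 0 with h | h | h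
        · linarith
        · exact absurd h this
        · exact absurd h hα
      rw [hv.top (opp α) h1 (ff α) (ff_mem α), lie_zero]

/-- Existence of highest weight vectors. -/
theorem exists_hw (f : Dual ℂ H →+ ℚ) (K : LieSubmodule ℂ L V) [FiniteDimensional ℂ K]
    (hK : K ≠ ⊥) : ∃ v ∈ K, ∃ μ, IsHW f v μ := by
  have hnt : Nontrivial K := (LieSubmodule.nontrivial_iff_ne_bot ℂ L V).mpr hK
  have hne : Nonempty (Weight ℂ H K) := by
    by_contra hcon
    rw [not_nonempty_iff] at hcon
    have h1 := iSup_genWeightSpace_eq_top' ℂ H K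
    rw [iSup_of_empty] at h1
    exact bot_ne_top h1
  obtain ⟨χ, hχ⟩ := Finite.exists_max (fun χ : Weight ℂ H K => f χ.toLinear)
  obtain ⟨m, hm0, hm⟩ := exists_forall_lie_eq_smul ℂ H K χ
  refine ⟨m, m.2, χ.toLinear, ⟨fun h0 => hm0 (Subtype.ext h0), fun h => ?_, fun α hα x hx => ?_⟩⟩
  · have h1 := congrArg Subtype.val (hm h)
    exact h1
  · by_contra hne
    have hm' : m ∈ genWeightSpace K (χ : H → ℂ) := by
      refine weightSpace_le_genWeightSpace K (χ : H → ℂ) ?_
      rw [mem_weightSpace]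
      exact hm
    have h1 : ⁅x, m⁆ ∈ genWeightSpace K ((α.1 : H → ℂ) + (χ : H → ℂ)) :=
      lie_mem_genWeightSpace_of_mem_genWeightSpace hx hm'
    have h2 : genWeightSpace K ((α.1 : H → ℂ) + (χ : H → ℂ)) ≠ ⊥ := by
      intro h0
      rw [h0, LieSubmodule.mem_bot] at h1
      exact hne (congrArg Subtype.val h1)
    let χ' : Weight ℂ H K := ⟨(α.1 : H → ℂ) + (χ : H → ℂ), h2⟩
    have h3 := hχ χ'
    have h4 : χ'.toLinear = α.1.toLinear + χ.toLinear := by
      ext h
      rfl
    rw [h4, map_add] at h3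
    linarith

/-- Highest weights are natural numbers on the positive coroots. -/
theorem IsHW.nat {f : Dual ℂ H →+ ℚ} {K : LieSubmodule ℂ L V} [FiniteDimensional ℂ K]
    {v : V} (hvK : v ∈ K) {μ : Dual ℂ H} (hv : IsHW f v μ) (α : H.root)
    (hα : 0 < f α.1.toLinear) : ∃ n : ℕ, μ (coroot α.1) = n := by
  have P : (sl2 α).HasPrimitiveVectorWith (⟨v, hvK⟩ : K) (μ (coroot α.1)) :=
    { ne_zero := fun h0 => hv.ne (congrArg Subtype.val h0)
      lie_h := Subtype.ext (hv.wt _)
      lie_e := Subtype.ext (hv.top α hα _ (ee_mem α)) }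
  exact P.exists_nat

end vec

end hw

end Vale.Agent.P292.H180
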