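import Vale.Agent.P292.H180.HW

/-! # Kostant's theorem: an algebra with the quadratic Casimir relation has irreducible pieces. -/

namespace Vale.Agent.P292.H180

open Module LieAlgebra LieAlgebra.IsKilling LieModule

section kos

variable {L : Type*} [LieRing L] [LieAlgebra ℂ L] [FiniteDimensional ℂ L]
  [LieAlgebra.IsKilling ℂ L] {H : LieSubalgebra ℂ L} [H.IsCartanSubalgebra]

/-- The cone generated by the positive roots. -/
def Cone (f : Dual ℂ H →+ ℚ) : AddSubmonoid (Dual ℂ H) :=
  AddSubmonoid.closure {ζ | ∃ α : H.root, 0 < f α.1.toLinear ∧ ζ = α.1.toLinear}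

theorem Cone.eq_zero_or {f : Dual ℂ H →+ ℚ} {ζ : Dual ℂ H} (hζ : ζ ∈ Cone f) :
    ζ = 0 ∨ 0 < f ζ := by
  induction hζ using AddSubmonoid.closure_induction with
  | mem x hx =>
    obtain ⟨α, hα, rfl⟩ := hx
    exact Or.inr hα
  | zero => exact Or.inl rfl
  | add x y _ _ hx hy =>
    rcases hx with rfl | hx
    · rwa [zero_add]
    · rcases hy with rfl | hy
      · rw [add_zero]; exact Or.inr hx
      · right
        rw [map_add]
        linarith

theorem Cone.nonneg {f : Dual ℂ H →+ ℚ} {ζ : Dual ℂ H} (hζ : ζ ∈ Cone f) : 0 ≤ f ζ := by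
  rcases Cone.eq_zero_or hζ with rfl | h
  · rw [map_zero]
  · exact h.le

theorem Cone.root_mem {f : Dual ℂ H →+ ℚ} (α : H.root) (hα : 0 < f α.1.toLinear) :
    α.1.toLinear ∈ Cone f := AddSubmonoid.subset_closure ⟨α, hα, rfl⟩

/-- The eigenvalue of the Casimir operator on a highest weight vector. -/
noncomputable def qq (f : Dual ℂ H →+ ℚ) (μ : Dual ℂ H) : ℂ :=
  μ (tt μ) + ∑ α ∈ Finset.univ.filter (fun α : H.root => 0 < f α.1.toLinear),
        μ (tt α.1.toLinear)

theorem tt_add (μ ν : Dual ℂ H) : tt (μ + ν) = tt μ + tt ν := map_add _ _ _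

theorem tt_sub (μ ν : Dual ℂ H) : tt (μ - ν) = tt μ - tt ν := map_sub _ _ _

/-- Dominant weights are separated by the Casimir operator. -/
theorem qq_inj (f : Dual ℂ H →+ ℚ) (hf : ∀ α : H.root, f (α.1.toLinear) ≠ 0)
    {μ ν : Dual ℂ H} (hμ : ∀ α : H.root, 0 < f α.1.toLinear → ∃ n : ℕ, μ (coroot α.1) = n)
    (hν : ∀ α : H.root, 0 < f α.1.toLinear → ∃ n : ℕ, ν (coroot α.1) = n)
    (h : ν - μ ∈ Cone f) (he : qq f μ = qq f ν) : μ = ν := by
  have key : ∀ ζ ∈ Cone f, ζ = 0 ∨ ∃ r : ℝ, 0 < r ∧ (ζ (tt (μ + ν)) +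
      ∑ α ∈ Finset.univ.filter (fun α : H.root => 0 < f α.1.toLinear),
        ζ (tt α.1.toLinear)) = r := by
    intro ζ hζ
    induction hζ using AddSubmonoid.closure_induction with
    | mem x hx =>
      obtain ⟨α, hα, rfl⟩ := hx
      right
      obtain ⟨r, hr, har⟩ := aa_pos α
      obtain ⟨n, hn, hsum⟩ := sum_pos_roots f hf α hα
      obtain ⟨m, hm⟩ := hμ α hα
      obtain ⟨m', hm'⟩ := hν α hα
      refine ⟨r * (m + m' + n), by positivity, ?_⟩
      rw [apply_tt_comm, tt_eq, map_smul, LinearMap.add_apply, hm, hm', smul_eq_mul]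
      have h1 : ∑ β ∈ Finset.univ.filter (fun β : H.root => 0 < f β.1.toLinear),
          (α.1.toLinear) (tt β.1.toLinear) = aa α * n := by
        rw [← hsum, Finset.mul_sum]
        refine Finset.sum_congr rfl fun β _ => ?_
        rw [apply_tt_comm, tt_eq, map_smul, smul_eq_mul]
        rfl
      rw [h1, har]
      push_cast
      ring
    | zero => exact Or.inl rfl
    | add x y _ _ hx hy =>
      have hadd : ∀ x y : Dual ℂ H, ((x + y) (tt (μ + ν)) +
          ∑ α ∈ Finset.univ.filter (fun α : H.root => 0 < f α.1.toLinear),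
          (x + y) (tt α.1.toLinear)) = (x (tt (μ + ν)) +
          ∑ α ∈ Finset.univ.filter (fun α : H.root => 0 < f α.1.toLinear),
          x (tt α.1.toLinear)) + (y (tt (μ + ν)) +
          ∑ α ∈ Finset.univ.filter (fun α : H.root => 0 < f α.1.toLinear),
          y (tt α.1.toLinear)) := by
        intro x y
        simp only [LinearMap.add_apply, Finset.sum_add_distrib]
        ring
      rcases hx with rfl | ⟨r, hr, hx⟩
      · rwa [zero_add]
      · rcases hy with rfl | ⟨r', hr', hy⟩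
        · rw [add_zero]; exact Or.inr ⟨r, hr, hx⟩
        · refine Or.inr ⟨r + r', by positivity, ?_⟩
          rw [hadd, hx, hy]
          push_cast
          ring
  rcases key _ h with h0 | ⟨r, hr, h1⟩
  · exact (sub_eq_zero.mp h0).symm
  · exfalso
    have h2 : (ν - μ) (tt (μ + ν)) + ∑ α ∈ Finset.univ.filter
        (fun α : H.root => 0 < f α.1.toLinear), (ν - μ) (tt α.1.toLinear) =
        qq f ν - qq f μ := by
      unfold qq
      simp only [LinearMap.sub_apply, tt_add, map_add, Finset.sum_sub_distrib]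
      rw [apply_tt_comm ν μ]
      ring
    rw [h2, he, sub_self] at h1
    have h3 : (r : ℂ) ≠ 0 := by exact_mod_cast hr.ne'
    exact h3 h1.symm

/-- The vectors obtained from `e` by applying negative root vectors. -/
inductive Reach (f : Dual ℂ H →+ ℚ) (e : L) (θ : Dual ℂ H) : L → Dual ℂ H → Prop
  | base : Reach f e θ e θ
  | step (w : L) (μ : Dual ℂ H) (α : H.root) (y : L) : Reach f e θ w μ →
      0 < f α.1.toLinear → y ∈ rootSpace H (-α.1) →
      Reach f e θ ⁅y, w⁆ (μ - α.1.toLinear)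

theorem Reach.wt {f : Dual ℂ H →+ ℚ} {e : L} {θ : Dual ℂ H} (he : IsHW f e θ) {w : L}
    {μ : Dual ℂ H} (h : Reach f e θ w μ) (t : H) : ⁅(t : L), w⁆ = μ t • w := by
  induction h with
  | base => exact he.wt t
  | step w μ α y _ hα hy ih =>
    have h1 : ⁅(t : L), y⁆ = (-α.1.toLinear) t • y := lie_eq_smul_of_mem_rootSpace hy t
    rw [leibniz_lie, h1, ih, lie_smul, smul_lie, ← add_smul, LinearMap.sub_apply,
      LinearMap.neg_apply]
    congr 1
    ring

theorem Reach.cone {f : Dual ℂ H →+ ℚ} {e : L} {θ : Dual ℂ H} {w : L}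
    {μ : Dual ℂ H} (h : Reach f e θ w μ) :
    (w = e ∧ μ = θ) ∨ (θ - μ ∈ Cone f ∧ 0 < f (θ - μ)) := by
  induction h with
  | base => exact Or.inl ⟨rfl, rfl⟩
  | step w μ α y _ hα hy ih =>
    right
    have h0 : θ - (μ - α.1.toLinear) = (θ - μ) + α.1.toLinear := by abel
    rw [h0]
    rcases ih with ⟨-, rfl⟩ | ⟨h1, h2⟩
    · rw [sub_self, zero_add]
      exact ⟨Cone.root_mem α hα, hα⟩
    · refine ⟨add_mem h1 (Cone.root_mem α hα), ?_⟩
      rw [map_add]
      linarith

theorem span_reach_neg {f : Dual ℂ H →+ ℚ} {e : L} {θ : Dual ℂ H} (α : H.root) (y : L)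
    (hα : 0 < f α.1.toLinear) (hy : y ∈ rootSpace H (-α.1)) (m : L)
    (hm : m ∈ Submodule.span ℂ {w | ∃ μ, Reach f e θ w μ}) :
    ⁅y, m⁆ ∈ Submodule.span ℂ {w | ∃ μ, Reach f e θ w μ} := by
  induction hm using Submodule.span_induction with
  | mem z hz =>
    obtain ⟨ν, hν⟩ := hz
    exact Submodule.subset_span ⟨_, Reach.step z ν α y hν hα hy⟩
  | zero => rw [lie_zero]; exact zero_mem _
  | add a b _ _ ha hb => rw [lie_add]; exact add_mem ha hb
  | smul t a _ ha => rw [lie_smul]; exact Submodule.smul_mem _ _ ha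

/-- The span of the reached vectors is an ideal. -/
theorem reach_ideal {f : Dual ℂ H →+ ℚ} (hf : ∀ α : H.root, f (α.1.toLinear) ≠ 0) {e : L}
    {θ : Dual ℂ H} (he : IsHW f e θ) {w : L} {μ : Dual ℂ H} (h : Reach f e θ w μ) :
    ∀ x : L, ⁅x, w⁆ ∈ Submodule.span ℂ {w | ∃ μ, Reach f e θ w μ} := by
  induction h with
  | base =>
    intro x
    let N : Submodule ℂ L :=
      { carrier := {x | ⁅x, e⁆ ∈ Submodule.span ℂ {w | ∃ μ, Reach f e θ w μ}}
        add_mem' := fun {a b} ha hb => by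
          change ⁅a + b, e⁆ ∈ Submodule.span ℂ {w | ∃ μ, Reach f e θ w μ}
          rw [add_lie]
          exact add_mem ha hb
        zero_mem' := by
          change ⁅(0 : L), e⁆ ∈ Submodule.span ℂ {w | ∃ μ, Reach f e θ w μ}
          rw [zero_lie]
          exact zero_mem _
        smul_mem' := fun t a ha => by
          change ⁅t • a, e⁆ ∈ Submodule.span ℂ {w | ∃ μ, Reach f e θ w μ}
          rw [smul_lie]
          exact Submodule.smul_mem _ _ ha }
    have hN : ∀ x, x ∈ N ↔ ⁅x, e⁆ ∈ Submodule.span ℂ {w | ∃ μ, Reach f e θ w μ} :=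
      fun x => Iff.rfl
    rw [← hN]
    refine mem_of_roots (H := H) N (fun t => ?_) (fun α y hy => ?_) x
    · rw [hN, he.wt]
      exact Submodule.smul_mem _ _ (Submodule.subset_span ⟨θ, Reach.base⟩)
    · rw [hN]
      by_cases hα : 0 < f α.1.toLinear
      · rw [he.top α hα y hy]
        exact zero_mem _
      · have h1 : 0 < f (opp α).1.toLinear := by
          rw [opp_toLinear, map_neg]
          have := hf α
          rcases lt_trichotomy (f α.1.toLinear) 0 with h | h | h
          · linarith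
          · exact absurd h this
          · exact absurd h hα
        have h2 : y ∈ rootSpace H (-(opp α).1) := by
          have h3 : (-((opp α).1 : Weight ℂ H L) : H → ℂ) = α.1 := by
            change (-(-(α.1 : H → ℂ))) = _
            rw [neg_neg]
          rw [h3]
          exact hy
        exact Submodule.subset_span ⟨_, Reach.step e θ (opp α) y Reach.base h1 h2⟩
  | step w μ α y h hα hy ih =>
    intro x
    rw [leibniz_lie]
    refine add_mem (ih _) ?_
    exact span_reach_neg α y hα hy _ (ih x)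

theorem span_reach_lie {f : Dual ℂ H →+ ℚ} (hf : ∀ α : H.root, f (α.1.toLinear) ≠ 0) {e : L}
    {θ : Dual ℂ H} (he : IsHW f e θ) (x m : L)
    (hm : m ∈ Submodule.span ℂ {w | ∃ μ, Reach f e θ w μ}) :
    ⁅x, m⁆ ∈ Submodule.span ℂ {w | ∃ μ, Reach f e θ w μ} := by
  induction hm using Submodule.span_induction with
  | mem z hz =>
    obtain ⟨ν, hν⟩ := hz
    exact reach_ideal hf he hν x
  | zero => rw [lie_zero]; exact zero_mem _
  | add a b _ _ ha hb => rw [lie_add]; exact add_mem ha hb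
  | smul t a _ ha => rw [lie_smul]; exact Submodule.smul_mem _ _ ha

/-- The structure of a simple Lie algebra as the module generated by a highest root vector. -/
theorem top_eq [LieAlgebra.IsSimple ℂ L] {f : Dual ℂ H →+ ℚ}
    (hf : ∀ α : H.root, f (α.1.toLinear) ≠ 0) {e : L}
    {θ : Dual ℂ H} (he : IsHW f e θ) (x : L) : x ∈ Submodule.span ℂ ({e} ∪
      {w | ∃ μ : Dual ℂ H, (∀ t : H, ⁅(t : L), w⁆ = μ t • w) ∧ θ - μ ∈ Cone f ∧
        0 < f (θ - μ)}) := by
  let I : LieIdeal ℂ L :=
    { Submodule.span ℂ {w | ∃ μ, Reach f e θ w μ} with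
      lie_mem := fun {x m} hm => span_reach_lie hf he x m hm }
  have hI : I = ⊤ := by
    refine (LieAlgebra.IsSimple.eq_bot_or_eq_top I).resolve_left fun h0 => ?_
    have h1 : e ∈ I := Submodule.subset_span ⟨θ, Reach.base⟩
    rw [h0] at h1
    exact he.ne h1
  have h1 : x ∈ I := by rw [hI]; trivial
  refine Submodule.span_mono ?_ (show x ∈ Submodule.span ℂ {w | ∃ μ, Reach f e θ w μ} from h1)
  rintro w ⟨μ, hμ⟩
  rcases hμ.cone with ⟨h2, -⟩ | h2
  · exact Or.inl h2
  · exact Or.inr ⟨μ, fun t => hμ.wt he t, h2⟩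

end kos

end Vale.Agent.P292.H180
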