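import Vale.Agent.P292.H180.Alg
import Mathlib.RingTheory.MvPolynomial.Homogeneous
import Mathlib.RingTheory.Derivation.Basic
import Mathlib.Algebra.MvPolynomial.Derivation

/-! # The ideal of a graded algebra generated by a simple Lie algebra is generated by quadrics. -/

namespace Vale.Agent.P292.H180

open Module LieAlgebra MvPolynomial

section quad

variable {L : Type*} [LieRing L] [LieAlgebra ℂ L] {κ : Type*} (b : Basis κ ℂ L)

/-- The linear form attached to an element of the Lie algebra. -/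
noncomputable def xh : L →ₗ[ℂ] MvPolynomial κ ℂ := b.constr ℂ (fun j => X j)

theorem xh_basis (j : κ) : xh b (b j) = X j := by
  simp [xh]

theorem xh_mem (x : L) : xh b x ∈ homogeneousSubmodule κ ℂ 1 := by
  have h1 : LinearMap.range (xh b) ≤ homogeneousSubmodule κ ℂ 1 := by
    rw [xh, Basis.constr_range, Submodule.span_le]
    rintro _ ⟨j, rfl⟩
    exact isHomogeneous_X ℂ j
  exact h1 ⟨x, rfl⟩

theorem range_xh : LinearMap.range (xh b) = homogeneousSubmodule κ ℂ 1 := by
  rw [xh, Basis.constr_range, homogeneousSubmodule_one_eq_span_X]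

/-- The action of the Lie algebra by derivations on the polynomial ring. -/
noncomputable def dd (x : L) : Derivation ℂ (MvPolynomial κ ℂ) (MvPolynomial κ ℂ) :=
  mkDerivation ℂ (fun j => xh b ⁅x, b j⁆)

theorem dd_xh (x y : L) : dd b x (xh b y) = xh b ⁅x, y⁆ := by
  let A : L →ₗ[ℂ] MvPolynomial κ ℂ := (dd b x : MvPolynomial κ ℂ →ₗ[ℂ] MvPolynomial κ ℂ) ∘ₗ xh b
  let B : L →ₗ[ℂ] MvPolynomial κ ℂ := xh b ∘ₗ (LieModule.toEnd ℂ L L x)
  have h : A = B := by
    refine b.ext fun j => ?_
    change dd b x (xh b (b j)) = xh b ⁅x, b j⁆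
    rw [xh_basis, dd, mkDerivation_X]
  exact LinearMap.congr_fun h y

theorem dd_add (x y : L) : dd b (x + y) = dd b x + dd b y := by
  refine derivation_ext fun j => ?_
  rw [Derivation.add_apply, ← xh_basis b, dd_xh, dd_xh, dd_xh, add_lie, map_add]

theorem dd_smul (t : ℂ) (x : L) : dd b (t • x) = t • dd b x := by
  refine derivation_ext fun j => ?_
  rw [Derivation.smul_apply, ← xh_basis b, dd_xh, dd_xh, smul_lie, map_smul]

theorem dd_lie (x y : L) (G : MvPolynomial κ ℂ) :
    dd b x (dd b y G) = dd b ⁅x, y⁆ G + dd b y (dd b x G) := by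
  induction G using MvPolynomial.induction_on with
  | C a => simp [← algebraMap_eq]
  | add p q hp hq => simp only [map_add, hp, hq]; ring
  | mul_X p j hp =>
    simp only [Derivation.leibniz, map_add, smul_eq_mul, hp]
    rw [← xh_basis b j, dd_xh, dd_xh, dd_xh, dd_xh, dd_xh, leibniz_lie x y (b j), map_add]
    ring

theorem dd_pow (x : L) (k : ℕ) : ∀ G ∈ (homogeneousSubmodule κ ℂ 1) ^ k,
    dd b x G ∈ (homogeneousSubmodule κ ℂ 1) ^ k := by
  induction k with
  | zero =>
    intro G hG
    rw [pow_zero, Submodule.mem_one] at hG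
    obtain ⟨s, rfl⟩ := hG
    rw [Derivation.map_algebraMap]
    exact zero_mem _
  | succ k ih =>
    intro G hG
    rw [pow_succ] at hG ⊢
    induction hG using Submodule.mul_induction_on' with
    | mem_mul_mem p hp q hq =>
      rw [← range_xh b] at hq
      obtain ⟨y, rfl⟩ := hq
      rw [Derivation.leibniz, smul_eq_mul, smul_eq_mul, dd_xh, mul_comm (xh b y)]
      exact add_mem (Submodule.mul_mem_mul hp (xh_mem b _))
        (Submodule.mul_mem_mul (ih p hp) (xh_mem b _))
    | add p hp q hq h1 h2 =>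
      rw [map_add]
      exact add_mem h1 h2

theorem dd_hom (x : L) {k : ℕ} {G : MvPolynomial κ ℂ} (hG : G.IsHomogeneous k) :
    (dd b x G).IsHomogeneous k := by
  have h1 : G ∈ (homogeneousSubmodule κ ℂ 1) ^ k := by
    rw [homogeneousSubmodule_one_pow]; exact hG
  have h2 := dd_pow b x k G h1
  rw [homogeneousSubmodule_one_pow] at h2
  exact h2

variable {R : Type*} [CommRing R] [Algebra ℂ R] {i : L →ₗ[ℂ] R} {act : L → Derivation ℂ R R}

/-- The presentation. -/
noncomputable def ph (i : L →ₗ[ℂ] R) : MvPolynomial κ ℂ →ₐ[ℂ] R := aeval (fun j => i (b j))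

theorem ph_xh (y : L) : ph b i (xh b y) = i y := by
  have h : (ph b i).toLinearMap ∘ₗ xh b = i := by
    refine b.ext fun j => ?_
    change ph b i (xh b (b j)) = i (b j)
    rw [xh_basis, ph, aeval_X]
  exact LinearMap.congr_fun h y

theorem ph_dd (hact : ∀ x y : L, act x (i y) = i ⁅x, y⁆) (x : L) (G : MvPolynomial κ ℂ) :
    ph b i (dd b x G) = act x (ph b i G) := by
  induction G using MvPolynomial.induction_on with
  | C a => simp [← algebraMap_eq]
  | add p q hp hq => simp only [map_add, hp, hq]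
  | mul_X p j hp =>
    simp only [Derivation.leibniz, map_add, map_mul, smul_eq_mul, hp]
    rw [← xh_basis b j, dd_xh, ph_xh, ph_xh, hact]

/-- The ideal generated by the quadrics. -/
noncomputable def quadIdeal (i : L →ₗ[ℂ] R) : Ideal (MvPolynomial κ ℂ) :=
  Ideal.span {G | G.IsHomogeneous 2 ∧ ph b i G = 0}

theorem dd_quadIdeal (hact : ∀ x y : L, act x (i y) = i ⁅x, y⁆) (x : L)
    {G : MvPolynomial κ ℂ} (hG : G ∈ quadIdeal b i) : dd b x G ∈ quadIdeal b i := by
  unfold quadIdeal at hG ⊢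
  induction hG using Submodule.span_induction with
  | mem G hG =>
    refine Ideal.subset_span ⟨dd_hom b x hG.1, ?_⟩
    rw [ph_dd b hact, hG.2, map_zero]
  | zero => rw [map_zero]; exact zero_mem _
  | add p q _ _ hp hq => rw [map_add]; exact add_mem hp hq
  | smul p q hq0 hq =>
    rw [smul_eq_mul, Derivation.leibniz, smul_eq_mul, smul_eq_mul]
    exact add_mem (Ideal.mul_mem_left _ _ hq) (Ideal.mul_mem_right _ _ hq0)

theorem dq_aux (hact : ∀ x y : L, act x (i y) = i ⁅x, y⁆) (x : L) (G : MvPolynomial κ ℂ)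
    (hG : Ideal.Quotient.mkₐ ℂ (quadIdeal b i) G = 0) :
    Ideal.Quotient.mkₐ ℂ (quadIdeal b i) (dd b x G) = 0 := by
  rw [Ideal.Quotient.mkₐ_eq_mk, Ideal.Quotient.eq_zero_iff_mem] at hG ⊢
  exact dd_quadIdeal b hact x hG

/-- The action on the quotient. -/
noncomputable def dq (hact : ∀ x y : L, act x (i y) = i ⁅x, y⁆) (x : L) :
    Derivation ℂ (MvPolynomial κ ℂ ⧸ quadIdeal b i) (MvPolynomial κ ℂ ⧸ quadIdeal b i) :=
  Derivation.liftOfSurjective (f := Ideal.Quotient.mkₐ ℂ (quadIdeal b i))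
    (Ideal.Quotient.mkₐ_surjective ℂ (quadIdeal b i)) (d := dd b x) (dq_aux b hact x)

theorem dq_mk (hact : ∀ x y : L, act x (i y) = i ⁅x, y⁆) (x : L) (G : MvPolynomial κ ℂ) :
    dq b hact x (Ideal.Quotient.mk (quadIdeal b i) G) =
      Ideal.Quotient.mk (quadIdeal b i) (dd b x G) :=
  Derivation.liftOfSurjective_apply (f := Ideal.Quotient.mkₐ ℂ (quadIdeal b i))
    (Ideal.Quotient.mkₐ_surjective ℂ (quadIdeal b i)) (dq_aux b hact x) G

/-- The quotient as a Lie module. -/
@[reducible] noncomputable def lrm (hact : ∀ x y : L, act x (i y) = i ⁅x, y⁆) :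
    LieRingModule L (MvPolynomial κ ℂ ⧸ quadIdeal b i) where
  bracket x t := dq b hact x t
  add_lie x y t := by
    obtain ⟨G, rfl⟩ := Ideal.Quotient.mk_surjective t
    change dq b hact (x + y) _ = dq b hact x _ + dq b hact y _
    rw [dq_mk, dq_mk, dq_mk, dd_add, Derivation.add_apply, map_add]
  lie_add x s t := map_add _ _ _
  leibniz_lie x y t := by
    obtain ⟨G, rfl⟩ := Ideal.Quotient.mk_surjective t
    change dq b hact x (dq b hact y _) = dq b hact ⁅x, y⁆ _ + dq b hact y (dq b hact x _)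
    rw [dq_mk, dq_mk, dq_mk, dq_mk, dq_mk, dd_lie, map_add]

theorem lm (hact : ∀ x y : L, act x (i y) = i ⁅x, y⁆) :
    letI := lrm b hact
    LieModule ℂ L (MvPolynomial κ ℂ ⧸ quadIdeal b i) :=
  letI := lrm b hact
  { smul_lie := fun s x t => by
      obtain ⟨G, rfl⟩ := Ideal.Quotient.mk_surjective t
      change dq b hact (s • x) _ = s • dq b hact x _
      rw [dq_mk, dq_mk, dd_smul, Derivation.smul_apply]
      rfl
    lie_smul := fun s x t => Derivation.map_smul _ _ _ }

/-- **The ideal is generated by quadrics.** -/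
theorem ker_eq [FiniteDimensional ℂ L] [LieAlgebra.IsSimple ℂ L] [IsDomain R]
    (hact : ∀ x y : L, act x (i y) = i ⁅x, y⁆)
    {ι : Type*} [Fintype ι] {c c' : ι → L}
    (hc : IsCas c c') {γ : ℂ}
    (hrel : ∀ x y : L, ∑ j, i ⁅c j, x⁆ * i ⁅c' j, y⁆ = γ • (i x * i y))
    (hinj : Function.Injective i)
    (𝒜 : ℕ → Submodule ℂ R) [GradedAlgebra 𝒜] (hi : ∀ x, i x ∈ 𝒜 1) :
    RingHom.ker (ph b i) = quadIdeal b i := by
  letI := lrm b hact
  haveI := lm b hact
  set T := MvPolynomial κ ℂ ⧸ quadIdeal b i with hT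
  have hle : quadIdeal b i ≤ RingHom.ker (ph b i) := by
    unfold quadIdeal
    rw [Ideal.span_le]
    intro G hG
    exact hG.2
  refine le_antisymm ?_ hle
  let ψ : T →ₐ[ℂ] R := Ideal.Quotient.liftₐ (quadIdeal b i) (ph b i) (fun G hG => hle hG)
  have hψ : ∀ G, ψ (Ideal.Quotient.mk (quadIdeal b i) G) = ph b i G := fun G => rfl
  let q : MvPolynomial κ ℂ →ₐ[ℂ] T := Ideal.Quotient.mkₐ ℂ (quadIdeal b i)
  let iT : L →ₗ[ℂ] T := q.toLinearMap ∘ₗ xh b
  have hiT : ∀ x, iT x = Ideal.Quotient.mk (quadIdeal b i) (xh b x) := fun x => rfl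
  have hbr : ∀ (x : L) (G : MvPolynomial κ ℂ), ⁅x, Ideal.Quotient.mk (quadIdeal b i) G⁆ =
      Ideal.Quotient.mk (quadIdeal b i) (dd b x G) := fun x G => dq_mk b hact x G
  have hder : ∀ (x : L) (a a' : T), ⁅x, a * a'⁆ = ⁅x, a⁆ * a' + a * ⁅x, a'⁆ := by
    intro x a a'
    change dq b hact x (a * a') = dq b hact x a * a' + a * dq b hact x a'
    rw [Derivation.leibniz, smul_eq_mul, smul_eq_mul]
    ring
  have hiT' : ∀ x y : L, ⁅x, iT y⁆ = iT ⁅x, y⁆ := by
    intro x y
    rw [hiT, hiT, hbr, dd_xh]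
  have hrange : ∀ k, (LinearMap.range iT) ^ k =
      (homogeneousSubmodule κ ℂ k).map q.toLinearMap := by
    intro k
    rw [← homogeneousSubmodule_one_pow, Submodule.map_pow, ← range_xh b, ← LinearMap.range_comp]
  have hrelT : ∀ x y : L, ∑ j, iT ⁅c j, x⁆ * iT ⁅c' j, y⁆ = γ • (iT x * iT y) := by
    intro x y
    let G : MvPolynomial κ ℂ := ∑ j, xh b ⁅c j, x⁆ * xh b ⁅c' j, y⁆ - γ • (xh b x * xh b y)
    have hG : G ∈ quadIdeal b i := by
      refine Ideal.subset_span ⟨?_, ?_⟩
      · refine IsHomogeneous.sub (IsHomogeneous.sum _ _ _ fun j _ => ?_) ?_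
        · exact (show (xh b ⁅c j, x⁆).IsHomogeneous 1 from xh_mem b _).mul
            (show (xh b ⁅c' j, y⁆).IsHomogeneous 1 from xh_mem b _)
        · have h1 : (xh b x * xh b y).IsHomogeneous 2 :=
            (show (xh b x).IsHomogeneous 1 from xh_mem b _).mul
              (show (xh b y).IsHomogeneous 1 from xh_mem b _)
          exact (homogeneousSubmodule κ ℂ 2).smul_mem γ h1
      · simp only [G, map_sub, map_sum, map_mul, map_smul, ph_xh]
        rw [hrel, sub_self]
    have h1 : q G = 0 := Ideal.Quotient.eq_zero_iff_mem.mpr hG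
    simp only [G, map_sub, map_sum, map_mul, map_smul] at h1
    exact sub_eq_zero.mp h1
  have key : ∀ (k : ℕ) (G : MvPolynomial κ ℂ), G.IsHomogeneous k → ph b i G = 0 →
      G ∈ quadIdeal b i := by
    intro k G hG hG0
    let K : LieSubmodule ℂ L T :=
      { (LinearMap.range iT) ^ k ⊓ LinearMap.ker ψ.toLinearMap with
        lie_mem := fun {x m} hm => by
          obtain ⟨hm1, hm2⟩ := hm
          rw [hrange] at hm1
          obtain ⟨F, hF, rfl⟩ := hm1
          have h1 : ⁅x, q F⁆ = q (dd b x F) := hbr x F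
          change ⁅x, q F⁆ ∈ (LinearMap.range iT) ^ k ⊓ LinearMap.ker ψ.toLinearMap
          rw [h1, hrange]
          refine ⟨⟨_, dd_hom b x hF, rfl⟩, ?_⟩
          have h2 : ph b i F = 0 := hm2
          change ph b i (dd b x F) = 0
          rw [ph_dd b hact, h2, map_zero] }
    have hK : K = ⊥ := by
      refine kostant hder hiT' hc hrelT k K (fun m hm => hm.1) (fun e he hmem => ?_)
      have h1 : ψ ((iT e) ^ k) = 0 := hmem.2
      rw [map_pow] at h1
      have h2 : ψ (iT e) = i e := by rw [hiT, hψ, ph_xh]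
      rw [h2] at h1
      exact he (hinj (by rw [eq_zero_of_pow_eq_zero h1, map_zero]))
    have h1 : q G ∈ K := by
      refine ⟨?_, ?_⟩
      · rw [hrange]
        exact ⟨G, hG, rfl⟩
      · exact hG0
    rw [hK] at h1
    exact Ideal.Quotient.eq_zero_iff_mem.mp h1
  intro G hG
  have hG0 : ph b i G = 0 := hG
  have hmem : ∀ (k : ℕ) (F : MvPolynomial κ ℂ), F.IsHomogeneous k → ph b i F ∈ 𝒜 k := by
    intro k F hF
    have h1 : F ∈ (homogeneousSubmodule κ ℂ 1) ^ k := by
      rw [homogeneousSubmodule_one_pow]; exact hF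
    have h2 : (homogeneousSubmodule κ ℂ 1) ^ k ≤ (𝒜 k).comap (ph b i).toLinearMap := by
      clear h1 hF F
      induction k with
      | zero =>
        rw [pow_zero, Submodule.one_le]
        change ph b i 1 ∈ 𝒜 0
        rw [map_one]
        exact SetLike.one_mem_graded 𝒜
      | succ k ih =>
        rw [pow_succ, Submodule.mul_le]
        intro p hp r hr
        rw [← range_xh b] at hr
        obtain ⟨y, rfl⟩ := hr
        change ph b i (p * xh b y) ∈ 𝒜 (k + 1)
        rw [map_mul, ph_xh]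
        exact SetLike.mul_mem_graded (ih hp) (hi y)
    exact h2 h1
  have hcomp : ∀ k, ph b i (homogeneousComponent k G) = 0 := by
    intro k
    have h1 : GradedRing.proj 𝒜 k (ph b i G) = 0 := by rw [hG0, map_zero]
    have h2 : ph b i G = ∑ l ∈ Finset.range (G.totalDegree + 1),
        ph b i (homogeneousComponent l G) := by
      rw [← map_sum, sum_homogeneousComponent]
    rw [h2, map_sum] at h1
    have h3 : ∀ l, GradedRing.proj 𝒜 k (ph b i (homogeneousComponent l G)) =
        if l = k then ph b i (homogeneousComponent l G) else 0 := by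
      intro l
      have h4 := hmem l _ (homogeneousComponent_isHomogeneous l G)
      rw [GradedRing.proj_apply]
      split_ifs with hl
      · subst hl
        exact DirectSum.decompose_of_mem_same 𝒜 h4
      · exact DirectSum.decompose_of_mem_ne 𝒜 h4 hl
    simp_rw [h3] at h1
    rw [Finset.sum_ite_eq'] at h1
    by_cases hk : k ∈ Finset.range (G.totalDegree + 1)
    · rw [if_pos hk] at h1
      exact h1
    · rw [homogeneousComponent_eq_zero, map_zero]
      rw [Finset.mem_range] at hk
      omega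
  rw [← sum_homogeneousComponent G]
  exact Ideal.sum_mem _ fun k _ => key k _ (homogeneousComponent_isHomogeneous k G) (hcomp k)

end quad

end Vale.Agent.P292.H180
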