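import Vale.Agent.P292.H180.Cas
import Mathlib.LinearAlgebra.RootSystem.BaseExists

/-! # Positive roots, the sum of the positive roots, and an adapted canonical family. -/

namespace Vale.Agent.P292.H180

open Module LieAlgebra LieAlgebra.IsKilling LieModule

section roots

variable {L : Type*} [LieRing L] [LieAlgebra ℂ L] [FiniteDimensional ℂ L]
  [LieAlgebra.IsKilling ℂ L] (H : LieSubalgebra ℂ L) [H.IsCartanSubalgebra]

/-- A functional which does not vanish on the roots. -/
theorem exists_functional : ∃ f : Dual ℂ H →+ ℚ, ∀ α : H.root, f (α.1.toLinear) ≠ 0 := by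
  let _i : Module ℚ (Dual ℂ H) := Module.compHom (Dual ℂ H) (algebraMap ℚ ℂ)
  obtain ⟨f, hf⟩ : ∃ f : Dual ℚ (Dual ℂ H), ∀ i, f ((rootSystem H).root i) ≠ 0 :=
    exists_dual_forall_apply_ne_zero (rootSystem H).root <| by
      intro i
      exact (rootSystem H).ne_zero i
  exact ⟨f, hf⟩

variable {H}

theorem nz (α : H.root) : α.1.IsNonZero := LieSubalgebra.isNonZero_coe_root α

/-- The vector of the Cartan subalgebra dual to a functional. -/
noncomputable def tt (μ : Dual ℂ H) : H := (cartanEquivDual H).symm μ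

theorem killing_tt (μ : Dual ℂ H) (x : H) : killingForm ℂ L (tt μ : L) x = μ x := by
  have h1 : cartanEquivDual H (tt μ) = μ := LinearEquiv.apply_symm_apply _ _
  conv_rhs => rw [← h1]
  rfl

theorem apply_tt_comm (μ ν : Dual ℂ H) : μ (tt ν) = ν (tt μ) := by
  rw [← killing_tt μ, ← killing_tt ν, killing_comm]

/-- The scalar with `tt α = aa α • coroot α`. -/
noncomputable def aa (α : H.root) : ℂ := 2⁻¹ * α.1 (tt α.1.toLinear)

theorem tt_eq (α : H.root) : tt α.1.toLinear = aa α • coroot α.1 := by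
  have h0 : α.1 (tt α.1.toLinear) ≠ 0 :=
    root_apply_cartanEquivDual_symm_ne_zero (nz α)
  have h1 : coroot α.1 = 2 • (α.1 (tt α.1.toLinear))⁻¹ • tt α.1.toLinear := rfl
  rw [h1, aa, two_nsmul, ← two_smul ℂ, smul_smul, smul_smul]
  rw [show 2⁻¹ * α.1 (tt α.1.toLinear) * 2 * (α.1 (tt α.1.toLinear))⁻¹ = 1 by field_simp,
    one_smul]

theorem aa_ne_zero (α : H.root) : aa α ≠ 0 := by
  have h0 : α.1 (tt α.1.toLinear) ≠ 0 :=
    root_apply_cartanEquivDual_symm_ne_zero (nz α)
  exact mul_ne_zero (by norm_num) h0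

/-- `aa α` is a positive real number. -/
theorem aa_pos (α : H.root) : ∃ r : ℝ, 0 < r ∧ aa α = r := by
  have h1 : killingForm ℂ L (coroot α.1 : L) (coroot α.1 : L) = 2 * (aa α)⁻¹ := by
    have h2 : (tt α.1.toLinear : L) = aa α • (coroot α.1 : L) := by
      rw [tt_eq]; rfl
    have h3 := killing_tt α.1.toLinear (coroot α.1)
    rw [h2, map_smul, LinearMap.smul_apply, smul_eq_mul] at h3
    have h4 : α.1 (coroot α.1) = 2 := root_apply_coroot (nz α)
    rw [Weight.toLinear_apply, h4] at h3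
    field_simp [aa_ne_zero α]
    linear_combination h3
  have h2 : killingForm ℂ L (coroot α.1 : L) (coroot α.1 : L) =
      ∑ β ∈ H.root, β (coroot α.1) * β (coroot α.1) := by
    have h3 := congrArg (fun B => B (coroot α.1) (coroot α.1))
      (restrict_killingForm_eq_sum (K := ℂ) (L := L) (H := H))
    rw [LinearMap.sum_apply, LinearMap.sum_apply] at h3
    exact h3
  have h3 : ∀ β : Weight ℂ H L, ∃ z : ℤ, β (coroot α.1) = z := fun β =>
    ⟨_, apply_coroot_eq_cast α.1 β⟩
  choose z hz using h3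
  have h4 : (0 : ℝ) < ∑ β ∈ H.root, ((z β : ℤ) : ℝ) * (z β : ℤ) := by
    refine Finset.sum_pos' (fun β _ => mul_self_nonneg _) ⟨α.1, α.2, ?_⟩
    have h5 : ((z α.1 : ℤ) : ℂ) = 2 := by rw [← hz, root_apply_coroot (nz α)]
    have h6 : z α.1 = 2 := by exact_mod_cast h5
    rw [h6]
    norm_num
  refine ⟨2 * (∑ β ∈ H.root, ((z β : ℤ) : ℝ) * (z β : ℤ))⁻¹, by positivity, ?_⟩
  have h5 : 2 * (aa α)⁻¹ = ((∑ β ∈ H.root, ((z β : ℤ) : ℝ) * (z β : ℤ) : ℝ) : ℂ) := by
    rw [← h1, h2]
    push_cast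
    refine Finset.sum_congr rfl fun β _ => ?_
    rw [hz]
  have h6 := aa_ne_zero α
  have h7 : ((∑ β ∈ H.root, ((z β : ℤ) : ℝ) * (z β : ℤ) : ℝ) : ℂ) ≠ 0 := by
    rw [← h5]
    exact mul_ne_zero two_ne_zero (inv_ne_zero h6)
  rw [Complex.ofReal_mul, Complex.ofReal_inv, ← h5]
  push_cast
  field_simp

/-- The sum of the values of the positive roots on a positive coroot is positive. -/
theorem sum_pos_roots (f : Dual ℂ H →+ ℚ) (hf : ∀ α : H.root, f (α.1.toLinear) ≠ 0)
    (α : H.root) (hα : 0 < f α.1.toLinear) :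
    ∃ n : ℕ, 0 < n ∧
      ∑ β ∈ Finset.univ.filter (fun β : H.root => 0 < f β.1.toLinear), β.1 (coroot α.1) = n := by
  classical
  have h3 : ∀ β : H.root, ∃ z : ℤ, β.1 (coroot α.1) = z := fun β =>
    ⟨_, apply_coroot_eq_cast α.1 β.1⟩
  choose z hz using h3
  let σ := (rootSystem H).reflectionPerm α
  have hσ : ∀ β : H.root, (σ β).1.toLinear = β.1.toLinear - (z β : ℂ) • α.1.toLinear := by
    intro β
    have h4 := (rootSystem H).root_reflectionPerm α β
    rw [RootPairing.reflection_apply_root] at h4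
    change (σ β).1.toLinear = β.1.toLinear - (β.1 (coroot α.1)) • α.1.toLinear at h4
    rw [h4, hz]
  have hσ2 : ∀ β : H.root, σ (σ β) = β := fun β => by
    simp [σ]
  have hσz : ∀ β : H.root, z (σ β) = - z β := by
    intro β
    have h4 := LinearMap.congr_fun (hσ β) (coroot α.1)
    have h5 : (σ β).1 (coroot α.1) = β.1 (coroot α.1) - (z β : ℂ) * α.1 (coroot α.1) := h4
    rw [hz, hz, root_apply_coroot (nz α)] at h5
    have h6 : z (σ β) = z β - z β * 2 := by exact_mod_cast h5
    linarith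
  have hfσ : ∀ β : H.root, f (σ β).1.toLinear = f β.1.toLinear - z β * f α.1.toLinear := by
    intro β
    rw [hσ, map_sub]
    have h4 : ((z β : ℂ) • α.1.toLinear : Dual ℂ H) = z β • α.1.toLinear := by
      rw [Int.cast_smul_eq_zsmul]
    rw [h4, map_zsmul, zsmul_eq_mul]
  have hsum : ∑ β ∈ Finset.univ.filter (fun β : H.root => 0 < f β.1.toLinear), z β =
      ∑ β ∈ (Finset.univ.filter (fun β : H.root => 0 < f β.1.toLinear)).filter
        (fun β => ¬ 0 < f (σ β).1.toLinear), z β := by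
    rw [← Finset.sum_filter_add_sum_filter_not _ (fun β => 0 < f (σ β).1.toLinear), add_eq_right]
    refine Finset.sum_involution (fun β _ => σ β) (fun β hβ => ?_) (fun β hβ h0 h1 => ?_)
      (fun β hβ => ?_) (fun β hβ => hσ2 β)
    · rw [hσz, add_neg_cancel]
    · have := hσz β
      rw [h1] at this
      exact h0 (by omega)
    · simp only [Finset.mem_filter, Finset.mem_univ, true_and] at hβ ⊢
      rw [hσ2]
      exact ⟨hβ.2, hβ.1⟩
  have hpos : 0 < ∑ β ∈ Finset.univ.filter (fun β : H.root => 0 < f β.1.toLinear), z β := by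
    rw [hsum]
    have hzpos : ∀ β ∈ (Finset.univ.filter (fun β : H.root => 0 < f β.1.toLinear)).filter
        (fun β => ¬ 0 < f (σ β).1.toLinear), 0 < z β := by
      intro β hβ
      simp only [Finset.mem_filter, Finset.mem_univ, true_and] at hβ
      have h4 := hfσ β
      by_contra hcon
      have h5 : (z β : ℚ) ≤ 0 := by exact_mod_cast (not_lt.mp hcon)
      have h6 : (z β : ℚ) * f α.1.toLinear ≤ 0 := mul_nonpos_of_nonpos_of_nonneg h5 hα.le
      exact hβ.2 (by rw [h4]; linarith [hβ.1])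
    refine Finset.sum_pos hzpos ⟨α, ?_⟩
    simp only [Finset.mem_filter, Finset.mem_univ, true_and]
    refine ⟨hα, ?_⟩
    have h5 : ((z α : ℤ) : ℂ) = 2 := by rw [← hz, root_apply_coroot (nz α)]
    have h6 : z α = 2 := by exact_mod_cast h5
    rw [hfσ, h6]
    push_cast
    linarith
  refine ⟨(∑ β ∈ Finset.univ.filter (fun β : H.root => 0 < f β.1.toLinear), z β).toNat,
    by omega, ?_⟩
  have h7 : ((∑ β ∈ Finset.univ.filter (fun β : H.root => 0 < f β.1.toLinear), z β).toNat : ℤ) =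
      ∑ β ∈ Finset.univ.filter (fun β : H.root => 0 < f β.1.toLinear), z β :=
    Int.toNat_of_nonneg hpos.le
  have h8 : (((∑ β ∈ Finset.univ.filter
      (fun β : H.root => 0 < f β.1.toLinear), z β).toNat : ℤ) : ℂ) =
      ((∑ β ∈ Finset.univ.filter (fun β : H.root => 0 < f β.1.toLinear), z β : ℤ) : ℂ) := by
    rw [h7]
  rw [Int.cast_natCast] at h8
  rw [h8]
  push_cast
  exact Finset.sum_congr rfl fun β _ => hz β

end roots

end Vale.Agent.P292.H180
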